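import Vale.Agent.Lib.P219.K.Lin2.Defs2

/-! # P219, curvature `-1`, dimension four: strict linear certificates -/

namespace Vale.Agent.Lib.P219.Lin

/-- strict forms of the inequalities for `y ≤ 1` -/
structure Pv.OKls (v : Pv) : Prop where
  i2 : 0 < v.Rr
  i4a : 3 / 4 * (v.w ^ 2 * (v.A0 - v.Pi / 2)) < v.Fw + v.w ^ 2 * (v.Rr / 2)
  i4b : 3 / 4 * (v.w ^ 2 * (v.A0 - v.Pi * (1 + v.y) / (2 * v.y))) < v.Fw + v.w ^ 2 * (v.Rr / 2)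
  i5a : v.A0 - v.Pi / 2 < 3 / 4 * (1 + v.y) * (v.D + v.y ^ 2)
    * (v.P / (v.D ^ 2 - (1 - v.w ^ 2) * v.y ^ 4) + v.Rr / (2 * v.D ^ 2))
  i5b : v.A0 - v.Pi * (1 + v.y) / (2 * v.y) < 3 / 4 * (1 + v.y) * (v.D + v.y ^ 2)
    * (v.P / (v.D ^ 2 - (1 - v.w ^ 2) * v.y ^ 4) + v.Rr / (2 * v.D ^ 2))

/-- strict linear certificates -/
structure LinCert2.Strict {R : ℝ} (C : LinCert2 R) : Prop where
  ok_s : ∀ w y : ℝ, 0 < w → w < 1 → 0 < y → y ^ 2 * Real.tanh R ^ 2 = 1 - w ^ 2 →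
    ∃ e : ℝ, 0 < e ∧
      (Pv.mk w y (C.a - e) (C.q w) (C.dq w) (C.ddq w) (C.Y w) (C.dY w) (C.ddY w)).OK2
        (C.hk0 + C.hk1 * w)
  okl_s : ∀ w y : ℝ, 0 < w → w < 1 → 0 < y → y ≤ 1 → y ^ 2 * Real.tanh R ^ 2 = 1 - w ^ 2 →
    (Pv.mk w y C.a (C.q w) (C.dq w) (C.ddq w) (C.Y w) (C.dY w) (C.ddY w)).OKls
  okr_s : ∀ w y : ℝ, 0 < w → w < 1 → 1 < y → y ^ 2 * Real.tanh R ^ 2 = 1 - w ^ 2 →
    C.d / 8 * w ^ 6 * y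
      < (1 - w ^ 2) *
        ((Pv.mk w y C.a (C.q w) (C.dq w) (C.ddq w) (C.Y w) (C.dY w) (C.ddY w)).dB 1 1 0
        + 3 / 2 * (2 - w ^ 2) *
          (Pv.mk w y C.a (C.q w) (C.dq w) (C.ddq w) (C.Y w) (C.dY w) (C.ddY w)).B 1 1 0)

end Vale.Agent.Lib.P219.Lin
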