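import Vale.Agent.Lib.P219.K.Lin.LinDefs

/-! # P219, curvature `-1`, dimension four: certificates of the linear class, second form

As `LinCert`, but the bound (N2) for `y ≤ 1` is reduced to two-variable inequalities (`Lin/Two`), the
constant `d` is free, and the conditions `P1`, `P3` are weaker. -/

namespace Vale.Agent.Lib.P219.Lin

/-- values of the data at a point, with third derivatives -/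
structure Pw extends Pv where
  dddq : ℝ
  dddY : ℝ

/-- `x * (d/dr)` of `dA1, dKA, dB1, dKB, dGB` -/
noncomputable def Pw.ddA1 (v : Pw) : ℝ :=
  v.w ^ 2 * (1 - v.w ^ 2) * (1 - 2 * v.w ^ 2) * (v.q - v.Y) / 2
    - v.w ^ 2 * (1 - v.w ^ 2) * (v.dq - v.dY) + v.w ^ 2 * (v.ddq - v.ddY) / 2 + (v.dddq - v.dddY)
noncomputable def Pw.ddKA (v : Pw) : ℝ :=
  - (v.w ^ 2 * (1 - v.w ^ 2) * (1 - 2 * v.w ^ 2)) * (v.q - v.Y) / 2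
    + v.w ^ 2 * (1 - v.w ^ 2) * (v.dq - v.dY) + (2 - v.w ^ 2) * (v.ddq - v.ddY) / 2
noncomputable def Pw.ddB1 (v : Pw) : ℝ := v.dddY
noncomputable def Pw.ddKB (v : Pw) : ℝ :=
  - (v.w ^ 2 * (1 - v.w ^ 2) * (1 - 2 * v.w ^ 2)) * v.Y / 2
    + v.w ^ 2 * (1 - v.w ^ 2) * v.dY + (2 - v.w ^ 2) * v.ddY / 2
noncomputable def Pw.ddGB (v : Pw) : ℝ :=
  v.w ^ 2 * (1 - v.w ^ 2) * (1 - 2 * v.w ^ 2) * v.Y / 2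
    - v.w ^ 2 * (1 - v.w ^ 2) * v.dY + v.w ^ 2 * v.ddY / 2

/-- `x * (d/dr) dP` -/
noncomputable def Pw.ddP (v : Pw) : ℝ :=
  v.ddA1 + 2 * v.ddKA + (v.ddB1 * (1 + v.y ^ 2) + v.ddKB * (2 - v.y ^ 2)
    - 3 * v.y ^ 2 * (v.ddq - v.ddY) + v.ddGB * (1 + v.y ^ 2)) / 2
  + v.w ^ 2 * v.y ^ 2 * (v.dB1 - v.dKB - 3 * (v.dq - v.dY) + v.dGB)
  + v.w ^ 2 * v.y ^ 2 * (2 * v.w ^ 2 - 1) * (v.B1 - v.KB - 3 * (v.q - v.Y) + v.GB) / 2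

/-- `w² F`, where `dφ/d(c²) = 8 T³ F / w⁶`, `φ = c² f'(c)` -/
noncomputable def Pv.Fw (v : Pv) : ℝ := v.dP + (3 - 2 * v.w ^ 2) * v.P

/-- `x * (d/dr) Fw` -/
noncomputable def Pw.dFw (v : Pw) : ℝ :=
  v.ddP + (3 - 2 * v.w ^ 2) * v.dP + 2 * v.w ^ 2 * (1 - v.w ^ 2) * v.P

/-- `A` -/
noncomputable def Pv.A0 (v : Pv) : ℝ := v.a + v.A1 + 2 * v.KA
/-- `Π` -/
noncomputable def Pv.Pi (v : Pv) : ℝ := v.y ^ 2 * (v.KA - v.A1)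
/-- `R` -/
noncomputable def Pv.Rr (v : Pv) : ℝ := v.y ^ 2 * (v.KA - v.A1 + v.KB - v.B1 - v.GB)
/-- `D = 3/4 + y²/4` -/
noncomputable def Pv.D (v : Pv) : ℝ := 3 / 4 + v.y ^ 2 / 4

/-- conditions valid for all `y` -/
structure Pv.OK2 (v : Pv) (hk : ℝ) : Prop where
  Y_np : v.Y ≤ 0
  eta : 0 ≤ v.E
  n1a : ∀ m : ℝ, 0 ≤ m → m ≤ 1 → 0 ≤ v.B m (m ^ 2) (1 - m) + m ^ 2 * (v.w ^ 2 / 2 * v.E)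
  n1b : ∀ m : ℝ, 1 / 2 ≤ m → m ≤ 1 →
    0 ≤ v.B m (2 * m - 1) 0 + (2 * m - 1) * (v.w ^ 2 / 2 * v.E)
      + v.GB * ((1 - m) * m / 2 + (1 - m) ^ 3)
  p2a : ∀ m : ℝ, 0 ≤ m → m ≤ 1 → 0 ≤ v.B m (m ^ 2) (1 - m ^ 2) + m ^ 2 * (hk * v.y)
  p2b : ∀ m : ℝ, 1 / 2 ≤ m → m ≤ 1 →
    0 ≤ v.B m (2 * m - 1) (2 * m * (1 - m)) + (2 * m - 1) * (hk * v.y)
  p3a : ∀ m : ℝ, 0 ≤ m → m ≤ 1 / 2 → 0 ≤ v.B m 0 0 + v.GB / 2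
  p3b : ∀ c : ℝ, 0 ≤ c → c ≤ 1 →
    0 ≤ v.y * (v.a + v.A1 * (1 - c ^ 2 / 2) + v.KA * (2 + c ^ 2 / 2)
        + 3 / 2 * (v.y * (v.q - v.Y) * (1 - c)) + 3 * v.Y * c - hk)
      + v.B1 * (c ^ 2 + c - 1) / 2 - v.KB * (1 + (1 - c) ^ 2) / 2 + v.GB / 2
  p3b2 : ∀ c : ℝ, 0 ≤ c → c ≤ 1 →
    0 ≤ v.y * (v.a + v.A1 * (1 - c ^ 2 / 2) + v.KA * (2 + c ^ 2 / 2)
        + 3 / 2 * (v.y * (v.q - v.Y) * (1 - c)) + 3 * v.Y * c - hk)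
      + v.B1 * (c ^ 2 + c - 1) / 2 - v.KB * (1 + (1 - c) ^ 2) / 2 + v.GB / 2
      + v.y * (v.KA - v.A1) / 2 + c * (v.KB - v.B1) / 2
  p1a : |v.B1| ≤ v.y * (v.a + v.A1 + 2 * v.KA) + v.KB + v.GB
  p1b : 0 ≤ v.y * (v.a + 3 * v.KA) + 3 * v.KB

/-- conditions for `y ≤ 1` -/
structure Pw.OKl2 (v : Pw) (d T : ℝ) : Prop where
  stat : v.w ^ 2 * v.P + v.db + (3 - 5 / 2 * v.w ^ 2) * v.b = d / 8 * v.w ^ 6 / T ^ 2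
  P_nonneg : 0 ≤ v.P
  A_pos : 0 < v.A0
  i1 : 0 ≤ v.dFw + 4 * (1 - v.w ^ 2) * v.Fw
  i1' : 0 ≤ v.dP + 2 * (1 - v.w ^ 2) * v.P
  i2 : 0 ≤ v.Rr
  i3 : v.Pi ≤ v.y * v.A0
  i4a : 3 / 4 * (v.w ^ 2 * (v.A0 - v.Pi / 2)) ≤ v.Fw + v.w ^ 2 * (v.Rr / 2)
  i4b : 3 / 4 * (v.w ^ 2 * (v.A0 - v.Pi * (1 + v.y) / (2 * v.y))) ≤ v.Fw + v.w ^ 2 * (v.Rr / 2)
  i5a : v.A0 - v.Pi / 2 ≤ 3 / 4 * (1 + v.y) * (v.D + v.y ^ 2)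
    * (v.P / (v.D ^ 2 - (1 - v.w ^ 2) * v.y ^ 4) + v.Rr / (2 * v.D ^ 2))
  i5b : v.A0 - v.Pi * (1 + v.y) / (2 * v.y) ≤ 3 / 4 * (1 + v.y) * (v.D + v.y ^ 2)
    * (v.P / (v.D ^ 2 - (1 - v.w ^ 2) * v.y ^ 4) + v.Rr / (2 * v.D ^ 2))

/-- conditions for `1 ≤ y` -/
structure Pv.OKr2 (v : Pv) (d : ℝ) : Prop where
  h1 : ∀ m : ℝ, 0 ≤ m → m ≤ 1 → d / 8 * m ^ 2 * v.w ^ 6 * v.y
    ≤ (1 - v.w ^ 2) * (v.dB m (m ^ 2) (1 - m ^ 2)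
        + 3 / 2 * (2 - v.w ^ 2) * v.B m (m ^ 2) (1 - m ^ 2))
  h2 : ∀ m : ℝ, 1 / 2 ≤ m → m ≤ 1 → d / 8 * (2 * m - 1) * v.w ^ 6 * v.y
    ≤ (1 - v.w ^ 2) * (v.dB m (2 * m - 1) (2 * m * (1 - m) / (1 + m))
        + 3 / 2 * (2 - v.w ^ 2) * v.B m (2 * m - 1) (2 * m * (1 - m) / (1 + m)))
  h3 : ∀ m : ℝ, 0 ≤ m → m ≤ 1 / 2 →
    0 ≤ v.dB m 0 (1 - 2 * m ^ 2) + 3 / 2 * (2 - v.w ^ 2) * v.B m 0 (1 - 2 * m ^ 2)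

/-- a certificate of the linear class for the model ball of radius `R` (dimension four) -/
structure LinCert2 (R : ℝ) where
  q : ℝ → ℝ
  dq : ℝ → ℝ
  ddq : ℝ → ℝ
  dddq : ℝ → ℝ
  Y : ℝ → ℝ
  dY : ℝ → ℝ
  ddY : ℝ → ℝ
  dddY : ℝ → ℝ
  a : ℝ
  d : ℝ
  hk0 : ℝ
  hk1 : ℝ
  M : ℝ
  a_pos : 0 < a
  d_pos : 0 < d
  hk0_nonneg : 0 ≤ hk0
  hk1_nonneg : 0 ≤ hk1
  hq : ∀ w : ℝ, 0 < w → w < 1 → HasDerivAt q (-(2 * dq w) / (w * (1 - w ^ 2))) w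
  hdq : ∀ w : ℝ, 0 < w → w < 1 → HasDerivAt dq (-(2 * ddq w) / (w * (1 - w ^ 2))) w
  hddq : ∀ w : ℝ, 0 < w → w < 1 → HasDerivAt ddq (-(2 * dddq w) / (w * (1 - w ^ 2))) w
  hY : ∀ w : ℝ, 0 < w → w < 1 → HasDerivAt Y (-(2 * dY w) / (w * (1 - w ^ 2))) w
  hdY : ∀ w : ℝ, 0 < w → w < 1 → HasDerivAt dY (-(2 * ddY w) / (w * (1 - w ^ 2))) w
  hddY : ∀ w : ℝ, 0 < w → w < 1 → HasDerivAt ddY (-(2 * dddY w) / (w * (1 - w ^ 2))) w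
  bdd : ∀ w : ℝ, 0 < w → w < 1 → |q w| ≤ M ∧ |dq w| ≤ M ∧ |Y w| ≤ M ∧ |dY w| ≤ M
  ok : ∀ w y : ℝ, 0 < w → w < 1 → 0 < y → y ^ 2 * Real.tanh R ^ 2 = 1 - w ^ 2 →
    (Pv.mk w y a (q w) (dq w) (ddq w) (Y w) (dY w) (ddY w)).OK2 (hk0 + hk1 * w)
  okl : ∀ w y : ℝ, 0 < w → w < 1 → 0 < y → y ≤ 1 → y ^ 2 * Real.tanh R ^ 2 = 1 - w ^ 2 →
    (Pw.mk (Pv.mk w y a (q w) (dq w) (ddq w) (Y w) (dY w) (ddY w)) (dddq w) (dddY w)).OKl2 d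
      (Real.tanh R)
  okr : ∀ w y : ℝ, 0 < w → w < 1 → 1 ≤ y → y ^ 2 * Real.tanh R ^ 2 = 1 - w ^ 2 →
    (Pv.mk w y a (q w) (dq w) (ddq w) (Y w) (dY w) (ddY w)).OKr2 d

end Vale.Agent.Lib.P219.Lin
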