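import Vale.Agent.Lib.P219.K.Lin2.Defs2
import Vale.Agent.Lib.P219.K.Lin.LinAlg

/-!
# P219, curvature `-1`, dimension four: pointwise inequalities for pairs, second form
-/

namespace Vale.Agent.Lib.P219.Lin

section slope

variable {v : Pv} {hk : ℝ}

theorem Pv.OK2.GB_nonpos (h : v.OK2 hk) : v.GB ≤ 0 := by
  unfold Pv.GB
  have := h.Y_np
  nlinarith [sq_nonneg v.w]

theorem slope_core_2 (h : v.OK2 hk) {c c' : ℝ} (hc : 0 ≤ c) (hc1 : c ≤ 1) (hc' : 0 ≤ c')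
    (hc1' : c' ≤ 1) :
    0 ≤ v.B ((c + c') / 2) (c * c') (√((1 - c ^ 2) * (1 - c' ^ 2)))
      + c * c' * (v.w ^ 2 / 2 * v.E) - v.GB * (c * c' * √((1 - c) * (1 - c'))) := by
  have hG := h.GB_nonpos
  set m := (c + c') / 2 with hm
  set p := c * c' with hp
  set sg := √((1 - c) * (1 - c')) with hsg
  have hm0 : 0 ≤ m := by rw [hm]; linarith
  have hm1 : m ≤ 1 := by rw [hm]; linarith
  have hp0 : 0 ≤ p := mul_nonneg hc hc'
  have hpm : p ≤ m ^ 2 := mean_sq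
  have hlo : 2 * m - 1 ≤ p := mean_lo hc1 hc1'
  have hsg0 : 0 ≤ sg := Real.sqrt_nonneg _
  have hsg2 : sg ^ 2 = 1 - 2 * m + p := by
    rw [hsg, Real.sq_sqrt (mul_nonneg (by linarith) (by linarith))]
    rw [hm, hp]; ring
  have hsgm : sg ≤ 1 - m := by
    refine Real.sqrt_le_iff.2 ⟨by linarith, ?_⟩
    rw [hm]; nlinarith [sq_nonneg (c - c')]
  have hroot : √((1 - c ^ 2) * (1 - c' ^ 2)) ≤ sg * (1 + m) := by
    refine Real.sqrt_le_iff.2 ⟨mul_nonneg hsg0 (by linarith), ?_⟩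
    have e1 : (1 - c ^ 2) * (1 - c' ^ 2) = sg ^ 2 * ((1 + c) * (1 + c')) := by
      rw [hsg, Real.sq_sqrt (mul_nonneg (by linarith) (by linarith))]
      ring
    rw [e1, mul_pow]
    refine mul_le_mul_of_nonneg_left ?_ (sq_nonneg _)
    rw [hm]; nlinarith [sq_nonneg (c - c')]
  set ρ := √((1 - c ^ 2) * (1 - c' ^ 2)) with hρ
  have hU : m * ρ - p * sg ≤ sg * (1 - m + m ^ 2 - sg ^ 2) := by
    have h1 : m * ρ ≤ m * (sg * (1 + m)) := mul_le_mul_of_nonneg_left hroot hm0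
    rw [hsg2]
    nlinarith
  -- reduction to a bound for `m ρ - p sg`
  have main : ∀ U, m * ρ - p * sg ≤ U → 0 ≤ v.B m p 0 + p * (v.w ^ 2 / 2 * v.E) + v.GB * U →
      0 ≤ v.B m p ρ + p * (v.w ^ 2 / 2 * v.E) - v.GB * (p * sg) := by
    intro U hUU hU0
    have h1 : v.GB * U ≤ v.GB * (m * ρ - p * sg) := mul_le_mul_of_nonpos_left hUU hG
    rw [v.B_eq m p ρ]
    linarith
  rcases le_total m (1 / 2) with hmh | hmh
  · refine main ((1 - m) * (m + m ^ 2 - p)) ?_ ?_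
    · refine hU.trans ?_
      rw [hsg2]
      have e : 1 - m + m ^ 2 - (1 - 2 * m + p) = m + m ^ 2 - p := by ring
      rw [e]
      exact mul_le_mul_of_nonneg_right hsgm (by linarith)
    · have key := between_nonneg (f := fun p => v.B m p 0 + p * (v.w ^ 2 / 2 * v.E)
        + v.GB * ((1 - m) * (m + m ^ 2 - p))) (fun p => by
          rw [v.B_affine m p]
          ring) hp0 hpm ?_ ?_
      · exact key
      · have h3 := h.p3a m hm0 hmh
        have h4 : v.GB * (1 / 2) ≤ v.GB * ((1 - m) * (m + m ^ 2 - 0)) := by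
          refine mul_le_mul_of_nonpos_left ?_ hG
          nlinarith [mul_nonneg hm0 (sub_nonneg.2 hmh), mul_nonneg hm0 hm0]
        linarith
      · have h3 := h.n1a m hm0 hm1
        rw [v.B_eq m (m ^ 2) (1 - m)] at h3
        have e : v.GB * ((1 - m) * (m + m ^ 2 - m ^ 2)) = v.GB * (m * (1 - m)) := by ring
        rw [e]
        linarith
  · rcases eq_or_lt_of_le hm1 with hm1' | hm1'
    · -- `m = 1`
      have hsg' : sg = 0 := le_antisymm (by rw [hm1'] at hsgm; linarith) hsg0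
      have hρ' : ρ = 0 := le_antisymm (by rw [hsg'] at hroot; linarith) (Real.sqrt_nonneg _)
      have hp1 : p = 1 := by
        rw [hsg', hm1'] at hsg2
        linarith
      have h3 := h.n1a 1 zero_le_one le_rfl
      rw [hsg', hρ', hp1, hm1']
      have e : v.B 1 (1 ^ 2) (1 - 1) = v.B 1 1 0 := by norm_num
      rw [e] at h3
      linarith
    · set n := 1 - m with hn
      have hn0 : 0 < n := by rw [hn]; linarith
      refine main (n * m / 2 + n ^ 3 + (m / (2 * n) - n) * sg ^ 2) ?_ ?_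
      · refine hU.trans ?_
        have e : n * m / 2 + n ^ 3 + (m / (2 * n) - n) * sg ^ 2 - sg * (1 - m + m ^ 2 - sg ^ 2)
            = (sg - n) ^ 2 * (sg + n + m / (2 * n)) := by
          have : m = 1 - n := by rw [hn]; ring
          rw [this]
          field_simp
          ring
        have h5 : 0 ≤ (sg - n) ^ 2 * (sg + n + m / (2 * n)) :=
          mul_nonneg (sq_nonneg _) (by positivity)
        linarith
      · have key := between_nonneg (f := fun p => v.B m p 0 + p * (v.w ^ 2 / 2 * v.E)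
          + v.GB * (n * m / 2 + n ^ 3 + (m / (2 * n) - n) * (1 - 2 * m + p))) (fun p => by
            rw [v.B_affine m p]
            ring) hlo hpm ?_ ?_
        · rw [hsg2]
          exact key
        · have h3 := h.n1b m hmh hm1
          have e : n * m / 2 + n ^ 3 + (m / (2 * n) - n) * (1 - 2 * m + (2 * m - 1))
              = (1 - m) * m / 2 + (1 - m) ^ 3 := by
            rw [hn]; ring
          rw [e]
          linarith
        · have h3 := h.n1a m hm0 hm1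
          rw [v.B_eq m (m ^ 2) (1 - m)] at h3
          have e : n * m / 2 + n ^ 3 + (m / (2 * n) - n) * (1 - 2 * m + m ^ 2) = m * (1 - m) := by
            have : m = 1 - n := by rw [hn]; ring
            rw [this]
            field_simp
            ring
          rw [e]
          linarith

/-- (N4) for visible pairs -/
theorem comp_core_2 (h : v.OK2 hk) {c c' : ℝ} (hc : 0 ≤ c) (hc1 : c ≤ 1) (hc' : 0 ≤ c')
    (hc1' : c' ≤ 1) :
    0 ≤ v.B ((c + c') / 2) (c * c') (√((1 - c ^ 2) * (1 - c' ^ 2))) + c * c' * (hk * v.y) := by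
  have hG := h.GB_nonpos
  have hroot := root_le_s (c := c) (c' := c') (by nlinarith) (by nlinarith)
  set m := (c + c') / 2 with hm
  set p := c * c' with hp
  set ρ := √((1 - c ^ 2) * (1 - c' ^ 2)) with hρ
  have hm0 : 0 ≤ m := by rw [hm]; linarith
  have hm1 : m ≤ 1 := by rw [hm]; linarith
  have hp0 : 0 ≤ p := mul_nonneg hc hc'
  have hpm : p ≤ m ^ 2 := mean_sq
  have hlo : 2 * m - 1 ≤ p := mean_lo hc1 hc1'
  have main : 0 ≤ v.B m p (1 - 2 * m ^ 2 + p) + p * (hk * v.y) → 0 ≤ v.B m p ρ + p * (hk * v.y) := by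
    intro h0
    rw [v.B_eq] at h0 ⊢
    have h1 : v.GB * (m * (1 - 2 * m ^ 2 + p)) ≤ v.GB * (m * ρ) :=
      mul_le_mul_of_nonpos_left (mul_le_mul_of_nonneg_left hroot hm0) hG
    linarith
  apply main
  have haff : ∀ p : ℝ, v.B m p (1 - 2 * m ^ 2 + p) + p * (hk * v.y)
      = v.B m 0 (1 - 2 * m ^ 2 + 0) + 0 * (hk * v.y)
        + (v.B m 1 (1 - 2 * m ^ 2 + 1) + 1 * (hk * v.y)
          - (v.B m 0 (1 - 2 * m ^ 2 + 0) + 0 * (hk * v.y))) * p := by
    intro p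
    unfold Pv.B
    ring
  rcases le_total m (1 / 2) with hmh | hmh
  · refine between_nonneg (f := fun p => v.B m p (1 - 2 * m ^ 2 + p) + p * (hk * v.y)) haff hp0 hpm
      ?_ ?_
    · have h3 := h.p3a m hm0 hmh
      rw [v.B_eq m 0 (1 - 2 * m ^ 2 + 0)]
      have h4 : v.GB * (1 / 2) ≤ v.GB * (m * (1 - 2 * m ^ 2 + 0)) := by
        refine mul_le_mul_of_nonpos_left ?_ hG
        nlinarith [mul_nonneg hm0 hm0, mul_nonneg (mul_nonneg hm0 hm0) hm0]
      linarith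
    · have h3 := h.p2a m hm0 hm1
      have e : 1 - 2 * m ^ 2 + m ^ 2 = 1 - m ^ 2 := by ring
      rw [e]
      exact h3
  · refine between_nonneg (f := fun p => v.B m p (1 - 2 * m ^ 2 + p) + p * (hk * v.y)) haff hlo hpm
      ?_ ?_
    · have h3 := h.p2b m hmh hm1
      have e : 1 - 2 * m ^ 2 + (2 * m - 1) = 2 * m * (1 - m) := by ring
      rw [e]
      exact h3
    · have h3 := h.p2a m hm0 hm1
      have e : 1 - 2 * m ^ 2 + m ^ 2 = 1 - m ^ 2 := by ring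
      rw [e]
      exact h3

/-- `(a+b)/2 (1 - a b) ≤ 1 - (a² + b²)/2` in absolute value -/
theorem abs_one_sub {a b : ℝ} (ha : |a| ≤ 1) (hb : |b| ≤ 1) :
    |(a + b) / 2 * (1 - a * b)| ≤ 1 - (a ^ 2 + b ^ 2) / 2 := by
  obtain ⟨a1, a2⟩ := abs_le.1 ha
  obtain ⟨b1, b2⟩ := abs_le.1 hb
  have h1 : 0 ≤ (1 + (a + b) / 2) * ((1 - a) * (1 - b)) :=
    mul_nonneg (by linarith) (mul_nonneg (by linarith) (by linarith))
  have h2 : 0 ≤ (1 - (a + b) / 2) * ((1 + a) * (1 + b)) :=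
    mul_nonneg (by linarith) (mul_nonneg (by linarith) (by linarith))
  rw [abs_le]
  constructor <;> nlinarith

/-- `B ≥ 0` for mean curvature `0` -/
theorem zero_core_2 (h : v.OK2 hk) (hw : v.w ^ 2 ≤ 1) {c c' : ℝ} (hc : |c| ≤ 1) (hc' : |c'| ≤ 1) :
    0 ≤ v.y * (v.a + v.A1 * (1 - (c ^ 2 + c' ^ 2) / 2) + v.KA * (2 + (c ^ 2 + c' ^ 2) / 2)
        - 0 * 3 * (v.y * (v.q - v.Y) * ((c + c') / 2) + v.Y * (c * c')))
      + (c + c') / 2 * (v.B1 * (1 - c * c') + v.KB * (2 + c * c'))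
      + v.GB * ((|c| + |c'|) / 2 * √((1 - c ^ 2) * (1 - c' ^ 2))) := by
  have hG := h.GB_nonpos
  have hc2 : c ^ 2 ≤ 1 := by rw [← sq_abs]; nlinarith [abs_nonneg c]
  have hc2' : c' ^ 2 ≤ 1 := by rw [← sq_abs]; nlinarith [abs_nonneg c']
  -- the root term
  have h1 : (|c| + |c'|) / 2 * √((1 - c ^ 2) * (1 - c' ^ 2)) ≤ 1 - (c ^ 2 + c' ^ 2) / 2 := by
    have e1 := root_le_p (abs_nonneg c) (abs_nonneg c') hc hc'
    rw [sq_abs, sq_abs] at e1
    have e2 := abs_one_sub (a := |c|) (b := |c'|) (by rwa [abs_abs]) (by rwa [abs_abs])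
    rw [sq_abs, sq_abs] at e2
    have e3 := le_abs_self ((|c| + |c'|) / 2 * (1 - |c| * |c'|))
    have e4 : (|c| + |c'|) / 2 * √((1 - c ^ 2) * (1 - c' ^ 2))
        ≤ (|c| + |c'|) / 2 * (1 - |c| * |c'|) :=
      mul_le_mul_of_nonneg_left e1 (by positivity)
    linarith
  have h2 : v.GB * (1 - (c ^ 2 + c' ^ 2) / 2)
      ≤ v.GB * ((|c| + |c'|) / 2 * √((1 - c ^ 2) * (1 - c' ^ 2))) :=
    mul_le_mul_of_nonpos_left h1 hG
  -- the `B1` term
  have h3 : -((1 - (c ^ 2 + c' ^ 2) / 2) * |v.B1|) ≤ (c + c') / 2 * (1 - c * c') * v.B1 := by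
    have e1 := abs_one_sub hc hc'
    have e2 : |(c + c') / 2 * (1 - c * c') * v.B1| ≤ (1 - (c ^ 2 + c' ^ 2) / 2) * |v.B1| := by
      rw [abs_mul]
      exact mul_le_mul_of_nonneg_right e1 (abs_nonneg _)
    have e3 := neg_abs_le ((c + c') / 2 * (1 - c * c') * v.B1)
    linarith
  -- the `KB` term
  have hKB : v.KB ≤ 0 := by
    have e1 := h.Y_np
    unfold Pv.KB
    nlinarith
  have h4 : v.KB * (1 + (c ^ 2 + c' ^ 2)) ≤ v.KB * ((c + c') / 2 * (2 + c * c')) :=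
    mul_le_mul_of_nonpos_left (mean_cube hc hc') hKB
  have p1 := h.p1a
  have p2 := h.p1b
  set S := (c ^ 2 + c' ^ 2) / 2 with hS
  have hS0 : 0 ≤ S := by rw [hS]; positivity
  have hS1 : S ≤ 1 := by rw [hS]; linarith
  have e : c ^ 2 + c' ^ 2 = 2 * S := by rw [hS]; ring
  rw [e] at h4
  have h5 : 0 ≤ (1 - S) * (v.y * (v.a + v.A1 + 2 * v.KA) + v.KB + v.GB - |v.B1|)
      + S * (v.y * (v.a + 3 * v.KA) + 3 * v.KB) :=
    add_nonneg (mul_nonneg (by linarith) (by linarith)) (mul_nonneg hS0 p2)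
  nlinarith

/-- (N4) for compensating pairs -/
theorem comp_core'_2 (h : v.OK2 hk) {γ c' : ℝ} (hγ : 0 ≤ γ) (hγ1 : γ ≤ 1) (hc' : 0 ≤ c')
    (hc1' : c' ≤ 1) :
    0 ≤ v.y * (v.a + v.A1 * (1 - (γ ^ 2 + c' ^ 2) / 2) + v.KA * (2 + (γ ^ 2 + c' ^ 2) / 2)
        - 3 * (v.y * (v.q - v.Y) * ((-γ + c') / 2) + v.Y * (-γ * c')))
      + (-γ + c') / 2 * (v.B1 * (1 - -γ * c') + v.KB * (2 + -γ * c'))
      + v.GB * ((γ + c') / 2 * √((1 - γ ^ 2) * (1 - c' ^ 2))) - γ * (hk * v.y) := by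
  have hG := h.GB_nonpos
  have h1 : (γ + c') / 2 * √((1 - γ ^ 2) * (1 - c' ^ 2)) ≤ 1 / 2 := by
    have e1 := root_le_p hγ hc' hγ1 hc1'
    have e2 := abs_half (a := γ) (b := c') (by rwa [abs_of_nonneg hγ]) (by rwa [abs_of_nonneg hc'])
    have e3 := le_abs_self ((γ + c') / 2 * (1 - γ * c'))
    have e4 : (γ + c') / 2 * √((1 - γ ^ 2) * (1 - c' ^ 2))
        ≤ (γ + c') / 2 * (1 - γ * c') :=
      mul_le_mul_of_nonneg_left e1 (by positivity)
    linarith
  have h2 : v.GB * (1 / 2) ≤ v.GB * ((γ + c') / 2 * √((1 - γ ^ 2) * (1 - c' ^ 2))) :=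
    mul_le_mul_of_nonpos_left h1 hG
  have h3 := h.p3a (c' / 2) (by linarith) (by linarith)
  have h4 := h.p3b c' hc' hc1'
  have h5 := h.p3b2 c' hc' hc1'
  -- the quadratic part
  set E2 := v.y * (v.KA - v.A1) / 2 + c' * (v.KB - v.B1) / 2 with hE2
  set X := v.y * (v.a + v.A1 * (1 - c' ^ 2 / 2) + v.KA * (2 + c' ^ 2 / 2)
        + 3 / 2 * (v.y * (v.q - v.Y) * (1 - c')) + 3 * v.Y * c' - hk)
      + v.B1 * (c' ^ 2 + c' - 1) / 2 - v.KB * (1 + (1 - c') ^ 2) / 2 + v.GB / 2 with hX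
  have h7 : 0 ≤ γ * X + γ ^ 2 * E2 := by
    rcases le_total 0 E2 with hE | hE
    · exact add_nonneg (mul_nonneg hγ h4) (mul_nonneg (sq_nonneg _) hE)
    · have e1 : γ ^ 2 ≤ γ := by nlinarith
      have e2 : γ * E2 ≤ γ ^ 2 * E2 := mul_le_mul_of_nonpos_right e1 hE
      have e3 : 0 ≤ γ * (X + E2) := mul_nonneg hγ (by linarith)
      linarith
  have h8 : 0 ≤ (1 - γ) * (v.B (c' / 2) 0 0 + v.GB / 2) := mul_nonneg (by linarith) h3
  unfold Pv.B at h8
  rw [hX, hE2] at h7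
  nlinarith

end slope

end Vale.Agent.Lib.P219.Lin
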