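import Vale.Agent.Lib.P219.K.Lin2.Defs2
import Vale.Agent.Lib.P219.K.Lin.Two

/-!
# P219, curvature `-1`, dimension four: the algebra of the two-variable reduction
-/

namespace Vale.Agent.Lib.P219.Lin

theorem Pv.B_diag (v : Pv) : v.B v.y (v.y ^ 2) (1 - v.y ^ 2) = v.y * v.b := by
  unfold Pv.B Pv.b Pv.A1 Pv.KA Pv.B1 Pv.KB Pv.GB
  ring

theorem Pv.two_ident (v : Pv) (hy : 0 < v.y) {c c' : ℝ} (hc : 0 < c) (hc' : 0 < c') :
    v.B ((c + c') / 2) (c * c') (1 - c * c') / v.y * (v.y / c) * (v.y / c')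
      + v.P * (2 - v.y / c - v.y / c') - v.b
    = v.Rr / 2 * ((1 - c / v.y) ^ 2 * (v.y / c) + (1 - c' / v.y) ^ 2 * (v.y / c'))
      + (1 - c / v.y) * (1 - c' / v.y) * (v.y / c) * (v.y / c')
        * (v.A0 - v.Pi / 2 * (c / v.y + c' / v.y)) := by
  unfold Pv.B Pv.b Pv.P Pv.Rr Pv.A0 Pv.Pi Pv.A1 Pv.KA Pv.B1 Pv.KB Pv.GB
  generalize v.y = y at *
  field_simp
  ring

/-- the pointwise conclusion -/
theorem Pw.T1 {v : Pw} {d T S : ℝ} {f φ : ℝ → ℝ} (hw : 0 < v.w)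
    (h : TwoH (T ^ 2) v.y v.P (v.Fw / v.w ^ 2) S f φ) (ho : v.OKl2 d T)
    (hT : v.y ^ 2 * T ^ 2 = 1 - v.w ^ 2) {c c' : ℝ} (hc : 0 < c) (hc1 : c ≤ 1) (hc' : 0 < c')
    (hc1' : c' ≤ 1) :
    c * c' * (S * v.b / v.y ^ 2 - (f c - f v.y) - (f c' - f v.y))
      ≤ S / v.y * v.B ((c + c') / 2) (c * c') (1 - c * c') := by
  wlog hcc : c ≤ c' generalizing c c'
  · have h1 := this hc' hc1' hc hc1 (le_of_not_ge hcc)
    have e1 : (c' + c) / 2 = (c + c') / 2 := by ring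
    have e2 : c' * c = c * c' := mul_comm _ _
    rw [e1, e2] at h1
    linarith
  have hy := h.y0
  have hS := h.S0
  have hw2 : 0 < v.w ^ 2 := pow_pos hw 2
  have e6 : T ^ 2 * v.y ^ 6 = (1 - v.w ^ 2) * v.y ^ 4 := by
    rw [← hT]; ring
  have i4 : ∀ t, 3 / 4 * (v.w ^ 2 * t) ≤ v.Fw + v.w ^ 2 * (v.Rr / 2) →
      3 / 4 * t ≤ v.Fw / v.w ^ 2 + v.Rr / 2 := by
    intro t ht
    have e : v.Fw / v.w ^ 2 + v.Rr / 2 = (v.Fw + v.w ^ 2 * (v.Rr / 2)) / v.w ^ 2 := by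
      field_simp
    rw [e, le_div_iff₀ hw2]
    linarith
  have i5a := ho.i5a
  have i5b := ho.i5b
  unfold Pv.D at i5a i5b
  have hcore := h.core ho.i2 ho.i3 (i4 _ ho.i4a) (i4 _ ho.i4b)
    (by rw [e6]; exact i5a) (by rw [e6]; exact i5b) ho.A_pos hc hc1 hc' hc1' hcc
  have hid := v.two_ident hy hc hc'
  have h1 : 0 ≤ v.y ^ 2 / S * (f c + f c' - 2 * f v.y)
      + v.B ((c + c') / 2) (c * c') (1 - c * c') / v.y * (v.y / c) * (v.y / c') - v.b := by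
    unfold Bg at hcore
    linarith
  have h2 := mul_nonneg (by positivity : 0 ≤ S * (c * c') / v.y ^ 2) h1
  have e1 : S * (c * c') / v.y ^ 2 * (v.y ^ 2 / S * (f c + f c' - 2 * f v.y)
      + v.B ((c + c') / 2) (c * c') (1 - c * c') / v.y * (v.y / c) * (v.y / c') - v.b)
      = S / v.y * v.B ((c + c') / 2) (c * c') (1 - c * c')
        - c * c' * (S * v.b / v.y ^ 2 - (f c - f v.y) - (f c' - f v.y)) := by
    field_simp
    ring
  rw [e1] at h2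
  linarith

end Vale.Agent.Lib.P219.Lin
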