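import Vale.Agent.Lib.P219.K.Lin2.Key2
import Vale.Agent.Lib.P219.K.Lin.LinLower
import Vale.Agent.Lib.P219.K.Lin.Two

/-!
# P219, curvature `-1`, dimension four: the function `f` and the bound (N2) of a linear certificate
-/

namespace Vale.Agent.Lib.P219.Lin

open Set Filter Topology

variable {R : ℝ}

/-! ### derivatives in `r`, in the form `(x d/dr) / x` -/

theorem LinCert2.d_b (C : LinCert2 R) {r : ℝ} (hr : 0 < r) :
    HasDerivAt (fun r => (C.pv r).b) ((C.pv r).db / xf r) r := by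
  have hw2 := ll_w2 hr
  have hy2 := ll_y2 (Real.tanh R) hr
  have hq := ll_comp C.hq hr
  have hdq := ll_comp C.hdq hr
  have t1 := (hy2.const_sub 1).fun_mul (((hw2.fun_mul hq).div_const 2).fun_add hdq)
  have t2 := (((hw2.const_sub 2).fun_mul hq).fun_mul (hy2.const_add 2)).div_const 2
  have t3 := (hy2.const_mul 3).fun_mul hq
  have key := ((t1.const_add C.a).fun_add t2).fun_sub t3
  refine key.congr_deriv ?_
  simp only [Pv.db, LinCert2.pv]
  ring

theorem LinCert2.d_A1 (C : LinCert2 R) {r : ℝ} (hr : 0 < r) :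
    HasDerivAt (fun r => (C.pv r).A1) ((C.pv r).dA1 / xf r) r := by
  have hw2 := ll_w2 hr
  have hq := ll_comp C.hq hr
  have hdq := ll_comp C.hdq hr
  have hY := ll_comp C.hY hr
  have hdY := ll_comp C.hdY hr
  have key := ((hw2.fun_mul (hq.fun_sub hY)).div_const 2).fun_add (hdq.fun_sub hdY)
  refine key.congr_deriv ?_
  simp only [Pv.dA1, LinCert2.pv]
  ring

theorem LinCert2.d_KA (C : LinCert2 R) {r : ℝ} (hr : 0 < r) :
    HasDerivAt (fun r => (C.pv r).KA) ((C.pv r).dKA / xf r) r := by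
  have hw2 := ll_w2 hr
  have hq := ll_comp C.hq hr
  have hY := ll_comp C.hY hr
  have key := ((hw2.const_sub 2).fun_mul (hq.fun_sub hY)).div_const 2
  refine key.congr_deriv ?_
  simp only [Pv.dKA, LinCert2.pv]
  ring

theorem LinCert2.d_B1 (C : LinCert2 R) {r : ℝ} (hr : 0 < r) :
    HasDerivAt (fun r => (C.pv r).B1) ((C.pv r).dB1 / xf r) r := ll_comp C.hdY hr

theorem LinCert2.d_KB (C : LinCert2 R) {r : ℝ} (hr : 0 < r) :
    HasDerivAt (fun r => (C.pv r).KB) ((C.pv r).dKB / xf r) r := by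
  have hw2 := ll_w2 hr
  have hY := ll_comp C.hY hr
  have key := ((hw2.const_sub 2).fun_mul hY).div_const 2
  refine key.congr_deriv ?_
  simp only [Pv.dKB, LinCert2.pv]
  ring

theorem LinCert2.d_GB (C : LinCert2 R) {r : ℝ} (hr : 0 < r) :
    HasDerivAt (fun r => (C.pv r).GB) ((C.pv r).dGB / xf r) r := by
  have hw2 := ll_w2 hr
  have hY := ll_comp C.hY hr
  have key := (hw2.fun_mul hY).div_const 2
  refine key.congr_deriv ?_
  simp only [Pv.dGB, LinCert2.pv]
  ring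

theorem LinCert2.d_P (C : LinCert2 R) {r : ℝ} (hr : 0 < r) :
    HasDerivAt (fun r => (C.pv r).P) ((C.pv r).dP / xf r) r := by
  have hy2 := ll_y2 (Real.tanh R) hr
  have hq := ll_comp C.hq hr
  have hY := ll_comp C.hY hr
  have hA1 := C.d_A1 hr
  have hKA := C.d_KA hr
  have hB1 := C.d_B1 hr
  have hKB := C.d_KB hr
  have hGB := C.d_GB hr
  have t1 := hB1.fun_mul (hy2.const_add 1)
  have t2 := hKB.fun_mul (hy2.const_sub 2)
  have t3 := (hy2.const_mul 3).fun_mul (hq.fun_sub hY)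
  have t4 := hGB.fun_mul (hy2.const_add 1)
  have t5 := (((t1.fun_add t2).fun_sub t3).fun_add t4).div_const 2
  have key := ((hA1.const_add C.a).fun_add (hKA.const_mul 2)).fun_add t5
  refine key.congr_deriv ?_
  simp only [Pv.dP]
  simp only [LinCert2.pv]
  ring

/-- derivative of `B_true = Pv.B / y` times `y` ... in the form used by `OKr` -/
theorem LinCert2.d_B (C : LinCert2 R) {r : ℝ} (hr : 0 < r) (m p ρ : ℝ) :
    HasDerivAt (fun r => (C.pv r).B m p ρ)
      (((C.pv r).dB m p ρ + wf r ^ 2 / 2 * (C.pv r).B m p ρ) / xf r) r := by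
  have hy := ll_y (Real.tanh R) hr
  have hq := ll_comp C.hq hr
  have hY := ll_comp C.hY hr
  have hA1 := C.d_A1 hr
  have hKA := C.d_KA hr
  have hB1 := C.d_B1 hr
  have hKB := C.d_KB hr
  have hGB := C.d_GB hr
  have t1 := (((hA1.mul_const (1 - 2 * m ^ 2 + p)).const_add C.a).fun_add
    (hKA.mul_const (2 + 2 * m ^ 2 - p))).fun_sub
      ((((hy.fun_mul (hq.fun_sub hY)).mul_const m).fun_add (hY.mul_const p)).const_mul 3)
  have t2 := (((hB1.mul_const (1 - p)).fun_add (hKB.mul_const (2 + p))).fun_add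
    (hGB.mul_const ρ)).const_mul m
  have key := (hy.fun_mul t1).fun_add t2
  refine key.congr_deriv ?_
  simp only [Pv.dB, Pv.B]
  simp only [LinCert2.pv]
  ring

/-! ### the function `f` -/

/-- `sinh^3 r * b / y^2` -/
noncomputable def LinCert2.K (C : LinCert2 R) (r : ℝ) : ℝ :=
  Real.sinh r ^ 3 * (C.pv r).b / (xf r / Real.tanh R) ^ 2

/-- the values at distance `r`, with third derivatives -/
noncomputable def LinCert2.pw (C : LinCert2 R) (r : ℝ) : Pw :=
  Pw.mk (C.pv r) (C.dddq (wf r)) (C.dddY (wf r))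

theorem LinCert2.okl' (C : LinCert2 R) (hR : 0 < R) {r : ℝ} (hr : 0 < r) (hr2 : r ≤ 2 * R) :
    (C.pw r).OKl2 C.d (Real.tanh R) := by
  have h := chord_cos hR r hr hr2
  exact C.okl _ _ (wf_pos r) (wf_lt_one hr) h.1 h.2 (C.y_sq hR r)

theorem LinCert2.okr' (C : LinCert2 R) (hR : 0 < R) {r : ℝ} (hr : 2 * R < r) :
    (C.pv r).OKr2 C.d := by
  have hr0 : 0 < r := by linarith
  have hT := tanh_pos hR
  have h : 1 ≤ xf r / Real.tanh R := by
    rw [le_div_iff₀ hT, one_mul]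
    exact ll_tanh_le (by linarith)
  exact C.okr _ _ (wf_pos r) (wf_lt_one hr0) h (C.y_sq hR r)

theorem LinCert2.d_K (C : LinCert2 R) (hR : 0 < R) {r : ℝ} (hr : 0 < r) (hr2 : r ≤ 2 * R) :
    HasDerivAt C.K (C.d - 8 * Real.tanh R ^ 2 * (C.pv r).P / wf r ^ 4) r := by
  have hT := (tanh_pos hR).ne'
  have hx := (xf_pos hr).ne'
  have hw := (wf_pos r).ne'
  have hs := ll_sinh hr
  have hb := C.d_b hr
  have hy2 := ll_y2 (Real.tanh R) hr
  have hy2' : (xf r / Real.tanh R) ^ 2 ≠ 0 := by positivity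
  have key := (hs.fun_mul hb).fun_div hy2 hy2'
  refine key.congr_deriv ?_
  have hstat := (C.okl' hR hr hr2).stat
  have e : (C.pw r).w = wf r := rfl
  rw [e] at hstat
  change wf r ^ 2 * (C.pv r).P + (C.pv r).db + (3 - 5 / 2 * wf r ^ 2) * (C.pv r).b = _ at hstat
  have hdb : (C.pv r).db = C.d / 8 * wf r ^ 6 / Real.tanh R ^ 2 - wf r ^ 2 * (C.pv r).P
      - (3 - 5 / 2 * wf r ^ 2) * (C.pv r).b := by linarith
  rw [hdb, sinh_three]
  generalize (C.pv r).b = b
  generalize (C.pv r).P = P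
  field_simp
  ring

/-- `f (rch c)` as a function of `r` -/
noncomputable def LinCert2.F (C : LinCert2 R) (r : ℝ) : ℝ := (C.d * r - C.K r) / 2

theorem LinCert2.d_F (C : LinCert2 R) (hR : 0 < R) {r : ℝ} (hr : 0 < r) (hr2 : r ≤ 2 * R) :
    HasDerivAt C.F (4 * Real.tanh R ^ 2 * (C.pv r).P / wf r ^ 4) r := by
  have h1 : HasDerivAt (fun r : ℝ => C.d * r) C.d r := by
    simpa using (hasDerivAt_id' r).const_mul C.d
  refine ((h1.fun_sub (C.d_K hR hr hr2)).div_const 2).congr_deriv ?_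
  ring

/-- `f'` -/
noncomputable def LinCert2.G (C : LinCert2 R) (c : ℝ) : ℝ :=
  8 * Real.tanh R ^ 3 * (C.pv (rch R c)).P / wf (rch R c) ^ 6

/-- derivative of `w^(-2j)`-weighted quantities -/
theorem ll_weight {g : ℝ → ℝ} {dg : ℝ} {r : ℝ} (hr : 0 < r) (hg : HasDerivAt g (dg / xf r) r)
    (j : ℕ) : HasDerivAt (fun r => g r / (wf r ^ 2) ^ j)
      ((dg + j * (1 - wf r ^ 2) * g r) / (wf r ^ 2) ^ j / xf r) r := by
  have hx := (xf_pos hr).ne'
  have hw : wf r ^ 2 ≠ 0 := (pow_pos (wf_pos r) 2).ne'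
  have h2 := (ll_w2 hr).fun_pow j
  refine (hg.fun_div h2 (pow_ne_zero j hw)).congr_deriv ?_
  rcases j with _ | j
  · simp
  · rw [show j + 1 - 1 = j from rfl, pow_succ]
    generalize wf r ^ 2 = z at hw
    have hz : z ^ j ≠ 0 := pow_ne_zero j hw
    field_simp
    ring

theorem mono_weight {g dg : ℝ → ℝ} (j : ℕ) (hg : ∀ r, 0 < r → r ≤ 2 * R → HasDerivAt g (dg r / xf r) r)
    (h : ∀ r, 0 < r → r ≤ 2 * R → 0 ≤ dg r + j * (1 - wf r ^ 2) * g r) :
    MonotoneOn (fun r => g r / (wf r ^ 2) ^ j) (Ioc 0 (2 * R)) := by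
  refine monotoneOn_of_deriv_nonneg (convex_Ioc _ _) ?_ ?_ ?_
  · intro r hr
    exact (ll_weight hr.1 (hg r hr.1 hr.2) j).continuousAt.continuousWithinAt
  · rw [interior_Ioc]
    intro r hr
    exact (ll_weight hr.1 (hg r hr.1 hr.2.le) j).differentiableAt.differentiableWithinAt
  · rw [interior_Ioc]
    intro r hr
    rw [(ll_weight hr.1 (hg r hr.1 hr.2.le) j).deriv]
    have := h r hr.1 hr.2.le
    have hx := xf_pos hr.1
    have hw := wf_pos r
    positivity

theorem LinCert2.d_dA1 (C : LinCert2 R) {r : ℝ} (hr : 0 < r) :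
    HasDerivAt (fun r => (C.pv r).dA1) ((C.pw r).ddA1 / xf r) r := by
  have hw2 := ll_w2 hr
  have hq := ll_comp C.hq hr
  have hdq := ll_comp C.hdq hr
  have hddq := ll_comp C.hddq hr
  have hY := ll_comp C.hY hr
  have hdY := ll_comp C.hdY hr
  have hddY := ll_comp C.hddY hr
  have t1 := (((hw2.fun_mul (hw2.const_sub 1)).fun_neg).fun_mul (hq.fun_sub hY)).div_const 2
  have t2 := (hw2.fun_mul (hdq.fun_sub hdY)).div_const 2
  have key := (t1.fun_add t2).fun_add (hddq.fun_sub hddY)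
  refine key.congr_deriv ?_
  simp only [Pw.ddA1, LinCert2.pw, LinCert2.pv]
  ring

theorem LinCert2.d_dKA (C : LinCert2 R) {r : ℝ} (hr : 0 < r) :
    HasDerivAt (fun r => (C.pv r).dKA) ((C.pw r).ddKA / xf r) r := by
  have hw2 := ll_w2 hr
  have hq := ll_comp C.hq hr
  have hdq := ll_comp C.hdq hr
  have hY := ll_comp C.hY hr
  have hdY := ll_comp C.hdY hr
  have t1 := ((hw2.fun_mul (hw2.const_sub 1)).fun_mul (hq.fun_sub hY)).div_const 2
  have t2 := ((hw2.const_sub 2).fun_mul (hdq.fun_sub hdY)).div_const 2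
  have key := t1.fun_add t2
  refine key.congr_deriv ?_
  simp only [Pw.ddKA, LinCert2.pw, LinCert2.pv]
  ring

theorem LinCert2.d_dB1 (C : LinCert2 R) {r : ℝ} (hr : 0 < r) :
    HasDerivAt (fun r => (C.pv r).dB1) ((C.pw r).ddB1 / xf r) r := ll_comp C.hddY hr

theorem LinCert2.d_dKB (C : LinCert2 R) {r : ℝ} (hr : 0 < r) :
    HasDerivAt (fun r => (C.pv r).dKB) ((C.pw r).ddKB / xf r) r := by
  have hw2 := ll_w2 hr
  have hY := ll_comp C.hY hr
  have hdY := ll_comp C.hdY hr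
  have t1 := ((hw2.fun_mul (hw2.const_sub 1)).fun_mul hY).div_const 2
  have t2 := ((hw2.const_sub 2).fun_mul hdY).div_const 2
  have key := t1.fun_add t2
  refine key.congr_deriv ?_
  simp only [Pw.ddKB, LinCert2.pw, LinCert2.pv]
  ring

theorem LinCert2.d_dGB (C : LinCert2 R) {r : ℝ} (hr : 0 < r) :
    HasDerivAt (fun r => (C.pv r).dGB) ((C.pw r).ddGB / xf r) r := by
  have hw2 := ll_w2 hr
  have hY := ll_comp C.hY hr
  have hdY := ll_comp C.hdY hr
  have t1 := (((hw2.fun_mul (hw2.const_sub 1)).fun_neg).fun_mul hY).div_const 2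
  have t2 := (hw2.fun_mul hdY).div_const 2
  have key := t1.fun_add t2
  refine key.congr_deriv ?_
  simp only [Pw.ddGB, LinCert2.pw, LinCert2.pv]
  ring

theorem LinCert2.d_dP (C : LinCert2 R) {r : ℝ} (hr : 0 < r) :
    HasDerivAt (fun r => (C.pv r).dP) ((C.pw r).ddP / xf r) r := by
  have hw2 := ll_w2 hr
  have hy2 := ll_y2 (Real.tanh R) hr
  have hq := ll_comp C.hq hr
  have hY := ll_comp C.hY hr
  have hdq := ll_comp C.hdq hr
  have hdY := ll_comp C.hdY hr
  have hA1 := C.d_dA1 hr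
  have hKA := C.d_dKA hr
  have hB1 := C.d_dB1 hr
  have hKB := C.d_dKB hr
  have hGB := C.d_dGB hr
  have t1 := hB1.fun_mul (hy2.const_add 1)
  have t2 := hKB.fun_mul (hy2.const_sub 2)
  have t3 := (hy2.const_mul 3).fun_mul (hdq.fun_sub hdY)
  have t4 := hGB.fun_mul (hy2.const_add 1)
  have t5 := (((t1.fun_add t2).fun_sub t3).fun_add t4).div_const 2
  have s1 := (((C.d_B1 hr).fun_sub (C.d_KB hr)).fun_sub ((hq.fun_sub hY).const_mul 3)).fun_add
    (C.d_GB hr)
  have s2 := ((hw2.fun_mul hy2).fun_mul s1).div_const 2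
  have key := ((hA1.fun_add (hKA.const_mul 2)).fun_add t5).fun_add s2
  refine key.congr_deriv ?_
  simp only [Pw.ddP]
  simp only [LinCert2.pw, LinCert2.pv]
  ring

theorem LinCert2.d_Fw (C : LinCert2 R) {r : ℝ} (hr : 0 < r) :
    HasDerivAt (fun r => (C.pv r).Fw) ((C.pw r).dFw / xf r) r := by
  have hw2 := ll_w2 hr
  have key := (C.d_dP hr).fun_add (((hw2.const_mul 2).const_sub 3).fun_mul (C.d_P hr))
  refine key.congr_deriv ?_
  simp only [Pw.dFw]
  simp only [LinCert2.pw, LinCert2.pv]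
  ring

/-- `P / w⁴` is nondecreasing -/
theorem LinCert2.mono_N (C : LinCert2 R) (hR : 0 < R) :
    MonotoneOn (fun r => (C.pv r).P / (wf r ^ 2) ^ 2) (Ioc 0 (2 * R)) := by
  refine mono_weight 2 (dg := fun r => (C.pv r).dP) (fun r hr _ => C.d_P hr) fun r hr hr2 => ?_
  have h := (C.okl' hR hr hr2).i1'
  have e : (C.pw r).w = wf r := rfl
  rw [e] at h
  push_cast
  exact h

/-- `Fw / w⁸` is nondecreasing -/
theorem LinCert2.mono_F (C : LinCert2 R) (hR : 0 < R) :
    MonotoneOn (fun r => (C.pv r).Fw / (wf r ^ 2) ^ 4) (Ioc 0 (2 * R)) := by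
  refine mono_weight 4 (dg := fun r => (C.pw r).dFw) (fun r hr _ => C.d_Fw hr) fun r hr hr2 => ?_
  have h := (C.okl' hR hr hr2).i1
  have e : (C.pw r).w = wf r := rfl
  rw [e] at h
  push_cast
  exact h

/-- `φ = c² f'` -/
noncomputable def LinCert2.φ (C : LinCert2 R) (c : ℝ) : ℝ := c ^ 2 * C.G c

/-- `dφ/d(c²)` -/
noncomputable def LinCert2.ψ (C : LinCert2 R) (c : ℝ) : ℝ :=
  8 * Real.tanh R ^ 3 * ((C.pv (rch R c)).Fw / (wf (rch R c) ^ 2) ^ 4)

theorem LinCert2.ψ_mono (C : LinCert2 R) (hR : 0 < R) :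
    ∀ x y, 0 < x → x ≤ y → y ≤ 1 → C.ψ x ≤ C.ψ y := by
  intro x y hx hxy hy
  have hT := tanh_pos hR
  have h := C.mono_F hR ⟨rch_pos hR hx (hxy.trans hy), rch_le hR hx (hxy.trans hy)⟩
    ⟨rch_pos hR (hx.trans_le hxy) hy, rch_le hR (hx.trans_le hxy) hy⟩ (rch_mono hR hx hxy hy)
  exact mul_le_mul_of_nonneg_left h (by positivity)

theorem LinCert2.ψ_nonneg (C : LinCert2 R) (hR : 0 < R) {c : ℝ} (hc : 0 < c) (hc1 : c ≤ 1) :
    0 ≤ C.ψ c := by
  have h := C.okl' hR (rch_pos hR hc hc1) (rch_le hR hc hc1)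
  have h1 := h.i1'
  have h2 := h.P_nonneg
  have hT := tanh_pos hR
  have hw := wf_pos (rch R c)
  have h3 : 0 ≤ (C.pv (rch R c)).Fw := by
    have e : (C.pv (rch R c)).Fw = ((C.pw (rch R c)).dP + 2 * (1 - (C.pw (rch R c)).w ^ 2)
        * (C.pw (rch R c)).P) + (C.pw (rch R c)).P := by
      simp only [Pv.Fw, LinCert2.pw]
      ring
    rw [e]
    exact add_nonneg h1 h2
  unfold LinCert2.ψ
  positivity

theorem LinCert2.hasDerivAt_φ (C : LinCert2 R) (hR : 0 < R) {c : ℝ} (hc : 0 < c) (hc1 : c < 1) :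
    HasDerivAt C.φ (2 * c * C.ψ c) c := by
  have hr := rch_pos hR hc hc1.le
  have hx := (xf_pos hr).ne'
  have hw := (wf_pos (rch R c)).ne'
  have hT := (tanh_pos hR).ne'
  have hxc : xf (rch R c) = Real.tanh R * c := tanh_half_rch hR hc.le hc1.le
  have h1 := (ll_weight hr (C.d_P hr) 3).const_mul (8 * Real.tanh R ^ 3)
  have h2 := h1.comp c (hasDerivAt_rch hR hc hc1)
  have hGe : (fun r => 8 * Real.tanh R ^ 3 * ((C.pv r).P / (wf r ^ 2) ^ 3)) ∘ rch R = C.G := by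
    funext t
    simp only [LinCert2.G, Function.comp_apply]
    rw [← pow_mul]
    ring
  rw [hGe] at h2
  have h3 : HasDerivAt (fun c : ℝ => c ^ 2) (2 * c) c := by
    simpa using (hasDerivAt_id' c).fun_pow 2
  refine (h3.fun_mul h2).congr_deriv ?_
  have hG : C.G c = 8 * Real.tanh R ^ 3 * (C.pv (rch R c)).P / wf (rch R c) ^ 6 := rfl
  rw [hG, sinh_eq_xf, hxc]
  simp only [LinCert2.ψ, Pv.Fw]
  have e : (C.pv (rch R c)).w = wf (rch R c) := rfl
  rw [e]
  generalize (C.pv (rch R c)).P = P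
  generalize (C.pv (rch R c)).dP = dP
  generalize wf (rch R c) = w at hw
  push_cast
  field_simp
  ring

theorem LinCert2.φ_cont (C : LinCert2 R) (hR : 0 < R) : ContinuousOn C.φ (Ioc 0 1) := by
  intro c hc
  have hr := rch_pos hR hc.1 hc.2
  have h1 := (ll_weight hr (C.d_P hr) 3).const_mul (8 * Real.tanh R ^ 3)
  have h2 : ContinuousWithinAt C.G (Ioc 0 1) c := by
    have := h1.continuousAt.comp_continuousWithinAt
      ((continuousOn_rch hR c ⟨hc.1.le, hc.2⟩).mono Ioc_subset_Icc_self)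
    refine this.congr (fun t _ => ?_) ?_
    · simp only [LinCert2.G, Function.comp_apply]
      rw [← pow_mul]
      ring
    · simp only [LinCert2.G, Function.comp_apply]
      rw [← pow_mul]
      ring
  exact (continuousWithinAt_id.pow 2).mul h2

/-- `φ` lies above its tangents as a function of `c²` -/
theorem LinCert2.φ_tangent (C : LinCert2 R) (hR : 0 < R) {y c : ℝ} (hy : 0 < y) (hy1 : y ≤ 1)
    (hc : 0 < c) (hc1 : c ≤ 1) : C.ψ y * (c ^ 2 - y ^ 2) ≤ C.φ c - C.φ y := by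
  have h := tangent_add_lower (f := C.φ) (G := fun c => 2 * c * C.ψ c)
    (H := fun y c => C.ψ y * (c ^ 2 - y ^ 2) - 2 * y * C.ψ y * (c - y))
    (h := fun y c => 2 * c * C.ψ y - 2 * y * C.ψ y) (C.φ_cont hR)
    (fun c hc hc1 => C.hasDerivAt_φ hR hc hc1) (fun y _ _ => by fun_prop)
    (fun y c _ _ _ _ => ?_) (fun y _ _ => by ring)
    (fun y c hy hyc hc1 => ?_) (fun y c hc hcy hy1 => ?_) y c hy hy1 hc hc1
  · beta_reduce at h
    linarith
  · have e1 : HasDerivAt (fun c : ℝ => c ^ 2 - y ^ 2) (2 * c) c := by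
      have : HasDerivAt (fun c : ℝ => c ^ 2) (2 * c) c := by
        simpa using (hasDerivAt_id' c).fun_pow 2
      exact this.sub_const _
    have e2 : HasDerivAt (fun c : ℝ => c - y) 1 c := (hasDerivAt_id' c).sub_const y
    refine ((e1.const_mul (C.ψ y)).fun_sub (e2.const_mul (2 * y * C.ψ y))).congr_deriv ?_
    ring
  · have := mul_le_mul_of_nonneg_left (C.ψ_mono hR y c hy hyc hc1.le)
      (by linarith : 0 ≤ 2 * c)
    linarith
  · have := mul_le_mul_of_nonneg_left (C.ψ_mono hR c y hc hcy hy1)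
      (by linarith : 0 ≤ 2 * c)
    linarith

theorem LinCert2.hasDerivAt_f0 (C : LinCert2 R) (hR : 0 < R) {c : ℝ} (hc : 0 < c) (hc1 : c < 1) :
    HasDerivAt (fun c => C.F (rch R c)) (C.G c) c := by
  have hr := rch_pos hR hc hc1.le
  have h1 := (C.d_F hR hr (rch_le hR hc hc1.le)).comp c (hasDerivAt_rch hR hc hc1)
  refine h1.congr_deriv ?_
  rw [LinCert2.G, sinh_eq_xf, show xf (rch R c) = Real.tanh R * c from tanh_half_rch hR hc.le hc1.le]
  have hw := (wf_pos (rch R c)).ne'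
  field_simp
  ring

theorem LinCert2.abs_b (C : LinCert2 R) (hR : 0 < R) {r : ℝ} (hr : 0 < r) (hr2 : r ≤ 2 * R) :
    |(C.pv r).b| ≤ C.a + 8 * C.M := by
  have h := chord_cos hR r hr hr2
  obtain ⟨hq, hdq, -, -⟩ := C.bdd _ (wf_pos r) (wf_lt_one hr)
  have hw := wf_pos r
  have hw1 := wf_lt_one hr
  have hM : 0 ≤ C.M := (abs_nonneg _).trans hq
  have ha := C.a_pos
  have hy0 : 0 < xf r / Real.tanh R := h.1
  have hy1 : xf r / Real.tanh R ≤ 1 := h.2
  simp only [Pv.b, LinCert2.pv]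
  generalize xf r / Real.tanh R = y at hy0 hy1
  generalize wf r = w at hw hw1 hq hdq
  generalize C.q w = q at hq
  generalize C.dq w = dq at hdq
  have hy2 : y ^ 2 ≤ 1 := by nlinarith
  have hy2' : 0 ≤ y ^ 2 := sq_nonneg y
  have hw2 : w ^ 2 ≤ 1 := by nlinarith
  have hw2' : 0 ≤ w ^ 2 := sq_nonneg w
  have m1 : ∀ {u v A B : ℝ}, |u| ≤ A → |v| ≤ B → |u * v| ≤ A * B := fun {u v A B} hu hv => by
    rw [abs_mul]
    exact mul_le_mul hu hv (abs_nonneg _) ((abs_nonneg _).trans hu)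
  have e1 : |(1 - y ^ 2) * (w ^ 2 * q / 2 + dq)| ≤ 1 * (C.M / 2 + C.M) := by
    refine m1 ?_ ?_
    · rw [abs_of_nonneg (by linarith)]
      linarith
    · refine (abs_add_le _ _).trans (add_le_add ?_ hdq)
      have : |w ^ 2 * q| ≤ 1 * C.M := m1 (by rw [abs_of_nonneg hw2']; exact hw2) hq
      rw [abs_div, abs_of_pos (by norm_num : (0 : ℝ) < 2)]
      linarith
  have e2 : |(2 - w ^ 2) * q * (2 + y ^ 2) / 2| ≤ 3 * C.M := by
    have e3 : (2 - w ^ 2) * q * (2 + y ^ 2) / 2 = ((2 - w ^ 2) * (2 + y ^ 2) / 2) * q := by ring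
    rw [e3]
    refine m1 ?_ hq
    rw [abs_of_nonneg (by
      refine div_nonneg (mul_nonneg (by linarith) (by linarith)) (by norm_num))]
    nlinarith
  have e4 : |3 * y ^ 2 * q| ≤ 3 * C.M := by
    refine m1 ?_ hq
    rw [abs_of_nonneg (by positivity)]
    linarith
  have t1 := abs_sub (C.a + (1 - y ^ 2) * (w ^ 2 * q / 2 + dq)
    + (2 - w ^ 2) * q * (2 + y ^ 2) / 2) (3 * y ^ 2 * q)
  have t2 := abs_add_le (C.a + (1 - y ^ 2) * (w ^ 2 * q / 2 + dq)) ((2 - w ^ 2) * q * (2 + y ^ 2) / 2)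
  have t3 := abs_add_le C.a ((1 - y ^ 2) * (w ^ 2 * q / 2 + dq))
  rw [abs_of_pos ha] at t3
  linarith

theorem LinCert2.K_cont (C : LinCert2 R) (hR : 0 < R) : ContinuousWithinAt C.K (Ici 0) 0 := by
  have hT := tanh_pos hR
  have h0 : C.K 0 = 0 := by
    simp [LinCert2.K]
  rw [← Ioi_insert, continuousWithinAt_insert_self, ContinuousWithinAt, h0]
  have hg : Continuous fun r => 8 * xf r * Real.tanh R ^ 2 * (C.a + 8 * C.M) / wf r ^ 6 := by
    refine Continuous.div ?_ (continuous_wf.pow 6) (fun r => (pow_pos (wf_pos r) 6).ne')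
    exact (((continuous_const.mul continuous_xf).mul continuous_const).mul continuous_const)
  have hg0 : Tendsto (fun r => 8 * xf r * Real.tanh R ^ 2 * (C.a + 8 * C.M) / wf r ^ 6)
      (𝓝[>] 0) (𝓝 0) := by
    have h1 := (hg.tendsto 0).mono_left (nhdsWithin_le_nhds (s := Ioi 0))
    have h2 : xf 0 = 0 := by simp [xf]
    rw [h2] at h1
    simpa using h1
  refine squeeze_zero_norm' ?_ hg0
  have hmem : Ioo 0 (2 * R) ∈ 𝓝[>] (0 : ℝ) := Ioo_mem_nhdsGT (by linarith)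
  filter_upwards [hmem] with r hr
  have hb := C.abs_b hR hr.1 hr.2.le
  have hx := xf_pos hr.1
  have hw := wf_pos r
  rw [LinCert2.K, sinh_three, Real.norm_eq_abs]
  have e : 8 * xf r ^ 3 / wf r ^ 6 * (C.pv r).b / (xf r / Real.tanh R) ^ 2
      = (8 * xf r * Real.tanh R ^ 2 / wf r ^ 6) * (C.pv r).b := by
    generalize (C.pv r).b = b
    field_simp
  rw [e, abs_mul, abs_of_pos (by positivity)]
  calc 8 * xf r * Real.tanh R ^ 2 / wf r ^ 6 * |(C.pv r).b|
      ≤ 8 * xf r * Real.tanh R ^ 2 / wf r ^ 6 * (C.a + 8 * C.M) :=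
        mul_le_mul_of_nonneg_left hb (by positivity)
    _ = _ := by ring

theorem LinCert2.f0_cont (C : LinCert2 R) (hR : 0 < R) :
    ContinuousOn (fun c => C.F (rch R c)) (Icc 0 1) := by
  intro c hc
  rcases eq_or_lt_of_le hc.1 with h | h
  · subst h
    have h1 : ContinuousWithinAt C.F (Ici 0) (rch R 0) := by
      rw [ll_rch_zero]
      have : ContinuousWithinAt (fun r : ℝ => C.d * r) (Ici 0) 0 := by fun_prop
      exact (this.sub (C.K_cont hR)).div_const 2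
    refine h1.comp (continuousOn_rch hR 0 hc) ?_
    intro c hc'
    rcases eq_or_lt_of_le hc'.1 with h | h
    · rw [← h, ll_rch_zero]
      exact self_mem_Ici
    · exact (rch_pos hR h hc'.2).le
  · exact (C.d_F hR (rch_pos hR h hc.2) (rch_le hR h hc.2)).continuousAt.comp_continuousWithinAt
      (continuousOn_rch hR c hc)

/-- `f` -/
noncomputable def LinCert2.f (C : LinCert2 R) (c : ℝ) : ℝ := C.F (rch R (max 0 (min c 1)))

theorem LinCert2.f_eq (C : LinCert2 R) {c : ℝ} (hc : 0 ≤ c) (hc1 : c ≤ 1) :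
    C.f c = C.F (rch R c) := by
  rw [LinCert2.f, min_eq_left hc1, max_eq_right hc]

theorem LinCert2.f_cont (C : LinCert2 R) (hR : 0 < R) : Continuous C.f := by
  refine (C.f0_cont hR).comp_continuous (by fun_prop) fun c => ?_
  exact ⟨le_max_left _ _, max_le zero_le_one (min_le_right _ _)⟩

theorem LinCert2.G_nonneg (C : LinCert2 R) (hR : 0 < R) {c : ℝ} (hc : 0 < c) (hc1 : c ≤ 1) :
    0 ≤ C.G c := by
  have h := (C.okl' hR (rch_pos hR hc hc1) (rch_le hR hc hc1)).P_nonneg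
  have hT := tanh_pos hR
  have hw := wf_pos (rch R c)
  unfold LinCert2.G
  positivity

theorem LinCert2.f_nonneg (C : LinCert2 R) (hR : 0 < R) (c : ℝ) : 0 ≤ C.f c := by
  have hmono : MonotoneOn (fun c => C.F (rch R c)) (Icc 0 1) := by
    refine monotoneOn_of_deriv_nonneg (convex_Icc _ _) (C.f0_cont hR) ?_ ?_
    · rw [interior_Icc]
      intro c hc
      exact (C.hasDerivAt_f0 hR hc.1 hc.2).differentiableAt.differentiableWithinAt
    · rw [interior_Icc]
      intro c hc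
      rw [(C.hasDerivAt_f0 hR hc.1 hc.2).deriv]
      exact C.G_nonneg hR hc.1 hc.2.le
  have hm : max 0 (min c 1) ∈ Icc (0 : ℝ) 1 :=
    ⟨le_max_left _ _, max_le zero_le_one (min_le_right _ _)⟩
  have h := hmono ⟨le_refl _, zero_le_one⟩ hm hm.1
  have h0 : C.F (rch R 0) = 0 := by
    rw [ll_rch_zero]
    simp [LinCert2.F, LinCert2.K]
  simp only at h
  rw [h0] at h
  exact h

theorem LinCert2.hasDerivAt_f (C : LinCert2 R) (hR : 0 < R) {c : ℝ} (hc : 0 < c) (hc1 : c < 1) :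
    HasDerivAt C.f (C.G c) c := by
  refine (C.hasDerivAt_f0 hR hc hc1).congr_of_eventuallyEq ?_
  filter_upwards [Ioo_mem_nhds hc hc1] with x hx
  exact C.f_eq hx.1.le hx.2.le


/-- (T2) at a point -/
theorem Pv.T2' {v : Pv} {d c c' : ℝ} (hw : v.w ^ 2 ≤ 1) (hr : v.OKr2 d)
    (hc : 0 ≤ c) (hc1 : c ≤ 1) (hc' : 0 ≤ c') (hc1' : c' ≤ 1) :
    d / 8 * (c * c') * v.w ^ 6 * v.y
      ≤ (1 - v.w ^ 2) * (v.dB ((c + c') / 2) (c * c') (rhos ((c + c') / 2) (c * c'))
        + 3 / 2 * (2 - v.w ^ 2) * v.B ((c + c') / 2) (c * c') (rhos ((c + c') / 2) (c * c'))) := by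
  obtain ⟨m, hm⟩ : ∃ m, m = (c + c') / 2 := ⟨_, rfl⟩
  have hm0 : 0 ≤ m := by rw [hm]; positivity
  have hm1 : m ≤ 1 := by rw [hm]; linarith
  rw [← hm]
  obtain ⟨L, hL⟩ : ∃ L : ℝ → ℝ, ∀ p, L p = (1 - v.w ^ 2) * (v.dB m p (rhos m p)
        + 3 / 2 * (2 - v.w ^ 2) * v.B m p (rhos m p)) - d / 8 * p * v.w ^ 6 * v.y :=
    ⟨_, fun _ => rfl⟩
  have key : 0 ≤ L (c * c') := by
    refine lin_p ?_ hc hc1 hc' hc1' ?_ ?_ ?_
    · intro p
      rw [hL p, hL 0, hL 1, rhos_lin m p]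
      simp only [Pv.B, Pv.dB]
      ring
    · rw [← hm, hL, rhos_sq]
      have := hr.h1 m hm0 hm1
      linarith
    · rw [← hm]
      intro h
      rw [hL, rhos_zero h]
      have := mul_nonneg (sub_nonneg.2 hw) (hr.h3 m hm0 h)
      linarith
    · rw [← hm]
      intro h
      rw [hL, rhos_edge h hm1]
      have := hr.h2 m h.le hm1
      linarith
  rw [hL] at key
  linarith

theorem rhos_le {c c' : ℝ} (hc : 0 ≤ c) (hc1 : c ≤ 1) (hc' : 0 ≤ c') (hc1' : c' ≤ 1) :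
    rhos ((c + c') / 2) (c * c') ≤ 1 - c * c' := by
  obtain ⟨m, hm⟩ : ∃ m, m = (c + c') / 2 := ⟨_, rfl⟩
  have hp1 : c * c' ≤ m ^ 2 := by rw [hm]; nlinarith [sq_nonneg (c - c')]
  have hm1 : m ≤ 1 := by rw [hm]; linarith
  have hm0 : 0 ≤ m := by rw [hm]; positivity
  rw [← hm]
  unfold rhos
  split_ifs with h
  · linarith
  · rcases eq_or_lt_of_le hm1 with h1 | h1
    · have h2 : c = 1 ∧ c' = 1 := by
        rw [hm] at h1
        constructor <;> linarith
      rw [h1, h2.1, h2.2]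
      norm_num
    · have hu : 0 < 1 - m ^ 2 := by nlinarith
      have h3 : (1 + m ^ 2) * (c * c' - m ^ 2) / (1 - m ^ 2) ≤ c * c' - m ^ 2 := by
        rw [div_le_iff₀ hu]
        nlinarith [mul_nonneg (sq_nonneg m) (sub_nonneg.2 hp1)]
      nlinarith [sq_nonneg (c - c')]

/-- (T1) at a point, from the two-variable core inequality -/
theorem Pv.T1_two {v : Pv} {f : ℝ → ℝ} {S c c' : ℝ} (hy : 0 < v.y) (hS : 0 < S) (hGB : v.GB ≤ 0)
    (hc : 0 < c) (hc1 : c ≤ 1) (hc' : 0 < c') (hc1' : c' ≤ 1)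
    (core : 0 ≤ Bg v.y v.P S f c + Bg v.y v.P S f c'
      + (v.y ^ 2 * (v.KA - v.A1 + v.KB - v.B1 - v.GB)) / 2
        * ((1 - c / v.y) ^ 2 * (v.y / c) + (1 - c' / v.y) ^ 2 * (v.y / c'))
      + (1 - c / v.y) * (1 - c' / v.y) * (v.y / c) * (v.y / c')
        * (v.a + v.A1 + 2 * v.KA - v.y ^ 2 * (v.KA - v.A1) / 2 * (c / v.y + c' / v.y))) :
    c * c' * (S * v.b / v.y ^ 2 - (f c - f v.y) - (f c' - f v.y))
      ≤ S / v.y * v.B ((c + c') / 2) (c * c') (rhos ((c + c') / 2) (c * c')) := by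
  have hρ := rhos_le hc.le hc1 hc'.le hc1'
  have hB : v.B ((c + c') / 2) (c * c') (1 - c * c')
      ≤ v.B ((c + c') / 2) (c * c') (rhos ((c + c') / 2) (c * c')) := by
    have e : v.B ((c + c') / 2) (c * c') (rhos ((c + c') / 2) (c * c'))
        - v.B ((c + c') / 2) (c * c') (1 - c * c')
        = (c + c') / 2 * (-v.GB) * (1 - c * c' - rhos ((c + c') / 2) (c * c')) := by
      simp only [Pv.B]
      ring
    have : 0 ≤ (c + c') / 2 * (-v.GB) * (1 - c * c' - rhos ((c + c') / 2) (c * c')) :=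
      mul_nonneg (mul_nonneg (by positivity) (by linarith)) (by linarith)
    linarith
  refine le_trans ?_ (mul_le_mul_of_nonneg_left hB (div_nonneg hS.le hy.le))
  have hp : 0 < c * c' := mul_pos hc hc'
  have hpos : 0 < S * (c * c') / v.y ^ 2 := by positivity
  have h1 := mul_le_mul_of_nonneg_left core hpos.le
  have e1 : S * (c * c') / v.y ^ 2 * (Bg v.y v.P S f c + Bg v.y v.P S f c'
      + (v.y ^ 2 * (v.KA - v.A1 + v.KB - v.B1 - v.GB)) / 2
        * ((1 - c / v.y) ^ 2 * (v.y / c) + (1 - c' / v.y) ^ 2 * (v.y / c'))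
      + (1 - c / v.y) * (1 - c' / v.y) * (v.y / c) * (v.y / c')
        * (v.a + v.A1 + 2 * v.KA - v.y ^ 2 * (v.KA - v.A1) / 2 * (c / v.y + c' / v.y)))
      = S / v.y * v.B ((c + c') / 2) (c * c') (1 - c * c')
        - c * c' * (S * v.b / v.y ^ 2 - (f c - f v.y) - (f c' - f v.y)) := by
    simp only [Bg, Pv.B, Pv.b, Pv.P, Pv.A1, Pv.KA, Pv.B1, Pv.KB, Pv.GB]
    have hy' := hy.ne'
    have hc0 := hc.ne'
    have hc0' := hc'.ne'
    have hS' := hS.ne'
    field_simp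
    ring
  rw [e1] at h1
  linarith

theorem LinCert2.core (C : LinCert2 R) (hR : 0 < R) {r c c' : ℝ} (hr : 0 < r) (hr2 : r ≤ 2 * R)
    (hc : 0 < c) (hc1 : c ≤ 1) (hc' : 0 < c') (hc1' : c' ≤ 1) (hcc : c ≤ c') :
    0 ≤ Bg (C.pv r).y (C.pv r).P (Real.sinh r ^ 3) C.f c
      + Bg (C.pv r).y (C.pv r).P (Real.sinh r ^ 3) C.f c'
      + ((C.pv r).y ^ 2 * ((C.pv r).KA - (C.pv r).A1 + (C.pv r).KB - (C.pv r).B1 - (C.pv r).GB)) / 2
        * ((1 - c / (C.pv r).y) ^ 2 * ((C.pv r).y / c)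
          + (1 - c' / (C.pv r).y) ^ 2 * ((C.pv r).y / c'))
      + (1 - c / (C.pv r).y) * (1 - c' / (C.pv r).y) * ((C.pv r).y / c) * ((C.pv r).y / c')
        * ((C.pv r).a + (C.pv r).A1 + 2 * (C.pv r).KA
          - (C.pv r).y ^ 2 * ((C.pv r).KA - (C.pv r).A1) / 2
            * (c / (C.pv r).y + c' / (C.pv r).y)) := by
  have hT := tanh_pos hR
  have hT1 := Real.tanh_lt_one R
  have hok := C.okl' hR hr hr2
  have hy := chord_cos hR r hr hr2
  have hyy : (C.pv r).y = Real.tanh (r / 2) / Real.tanh R := rfl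
  rw [← hyy] at hy
  have hrch : rch R (C.pv r).y = r := by rw [hyy]; exact rch_tanh hR
  have hw := wf_pos r
  have hxy : xf r = Real.tanh R * (C.pv r).y := by
    rw [hyy]
    unfold xf
    field_simp
  have hwy : wf r ^ 2 = 1 - Real.tanh R ^ 2 * (C.pv r).y ^ 2 := by
    have := xf_sq_add_wf_sq r
    rw [hxy] at this
    linarith
  have hφy : C.φ (C.pv r).y = Real.sinh r ^ 3 * (C.pv r).P / (C.pv r).y := by
    have h1 : C.G (C.pv r).y = 8 * Real.tanh R ^ 3 * (C.pv r).P / wf r ^ 6 := by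
      rw [LinCert2.G, hrch]
    have hy0 := hy.1.ne'
    rw [LinCert2.φ, h1, sinh_three, hxy]
    field_simp
  have hψy : C.ψ (C.pv r).y
      = Real.sinh r ^ 3 * ((C.pv r).Fw / wf r ^ 2) / (C.pv r).y ^ 3 := by
    have hy0 := hy.1.ne'
    rw [LinCert2.ψ, hrch, sinh_three, hxy]
    field_simp
  have hD : 0 < 3 / 4 + (C.pv r).y ^ 2 / 4 := by positivity
  have hstruct : TwoH (Real.tanh R ^ 2) (C.pv r).y (C.pv r).P ((C.pv r).Fw / wf r ^ 2)
      (Real.sinh r ^ 3) C.f C.φ := by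
    refine ⟨hy.1, hy.2, pow_pos (Real.sinh_pos_iff.2 hr) 3, sq_nonneg _, by nlinarith,
      (C.f_cont hR).continuousOn, ?_, ?_, ?_, ?_, hφy, hok.P_nonneg, ?_⟩
    · intro c hc hc1
      refine (C.hasDerivAt_f hR hc hc1).congr_deriv ?_
      rw [LinCert2.φ]
      field_simp
    · intro a b ha hab hb
      have h1 := C.φ_tangent hR ha (hab.trans hb) (ha.trans_le hab) hb
      have h2 := mul_nonneg (C.ψ_nonneg hR ha (hab.trans hb))
        (by nlinarith : 0 ≤ b ^ 2 - a ^ 2)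
      linarith
    · intro c hyc hc1
      have h1 := C.φ_tangent hR hy.1 hy.2 (hy.1.trans_le hyc) hc1
      rw [hψy] at h1
      linarith
    · intro a c ha hac hcy
      have hc0 := ha.trans_le hac
      have h1 := C.φ_tangent hR hc0 (hcy.trans hy.2) hy.1 hy.2
      have h2 := C.φ_tangent hR hc0 (hcy.trans hy.2) ha (hac.trans (hcy.trans hy.2))
      have h3 : 0 ≤ (C.pv r).y ^ 2 - c ^ 2 := by nlinarith
      have h4 : 0 ≤ c ^ 2 - a ^ 2 := by nlinarith
      have h5 := mul_le_mul_of_nonneg_right h1 h4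
      have h6 := mul_le_mul_of_nonneg_right h2 h3
      nlinarith
    · -- `φ (y³/D)`
      generalize hc1def : (C.pv r).y ^ 3 / (3 / 4 + (C.pv r).y ^ 2 / 4) = c1
      have hc10 : 0 < c1 := by rw [← hc1def]; have := hy.1; positivity
      have hc1y : c1 ≤ (C.pv r).y := by
        rw [← hc1def, div_le_iff₀ hD]
        have := hy.1
        have := hy.2
        have h2 : (C.pv r).y ^ 2 ≤ 1 := by nlinarith
        nlinarith [mul_nonneg hy.1.le (sub_nonneg.2 h2)]
      have h11 : c1 ≤ 1 := hc1y.trans hy.2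
      have hr1 := rch_pos hR hc10 h11
      have hm := C.mono_N hR ⟨hr1, rch_le hR hc10 h11⟩ ⟨hr, hr2⟩ (by
        have := rch_mono hR hc10 hc1y hy.2
        rwa [hrch] at this)
      have hw1 := wf_pos (rch R c1)
      have hx1 : xf (rch R c1) = Real.tanh R * c1 := tanh_half_rch hR hc10.le h11
      have hw1y : wf (rch R c1) ^ 2 = 1 - Real.tanh R ^ 2 * c1 ^ 2 := by
        have := xf_sq_add_wf_sq (rch R c1)
        rw [hx1] at this
        linarith
      beta_reduce at hm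
      have e1 : C.φ c1 = 8 * Real.tanh R ^ 3 * c1 ^ 2
          * ((C.pv (rch R c1)).P / (wf (rch R c1) ^ 2) ^ 2) / wf (rch R c1) ^ 2 := by
        rw [LinCert2.φ, LinCert2.G]
        field_simp
      have e2 : C.φ (C.pv r).y = 8 * Real.tanh R ^ 3 * (C.pv r).y ^ 2
          * ((C.pv r).P / (wf r ^ 2) ^ 2) / wf r ^ 2 := by
        rw [LinCert2.φ, LinCert2.G, hrch]
        field_simp
      have e3 : (3 / 4 + (C.pv r).y ^ 2 / 4) ^ 2 - Real.tanh R ^ 2 * (C.pv r).y ^ 6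
          = (3 / 4 + (C.pv r).y ^ 2 / 4) ^ 2 * wf (rch R c1) ^ 2 := by
        rw [hw1y, ← hc1def]
        field_simp
      have e4 : (C.pv r).y ^ 4 * (1 - Real.tanh R ^ 2 * (C.pv r).y ^ 2)
          = (C.pv r).y ^ 4 * wf r ^ 2 := by rw [hwy]
      rw [e1, e2, e3, e4]
      have e5 : 8 * Real.tanh R ^ 3 * c1 ^ 2
          * ((C.pv (rch R c1)).P / (wf (rch R c1) ^ 2) ^ 2) / wf (rch R c1) ^ 2
          * ((3 / 4 + (C.pv r).y ^ 2 / 4) ^ 2 * wf (rch R c1) ^ 2)
          = 8 * Real.tanh R ^ 3 * (C.pv r).y ^ 6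
            * ((C.pv (rch R c1)).P / (wf (rch R c1) ^ 2) ^ 2) := by
        have hc1D : c1 * (3 / 4 + (C.pv r).y ^ 2 / 4) = (C.pv r).y ^ 3 := by
          rw [← hc1def]
          field_simp
        generalize (C.pv (rch R c1)).P / (wf (rch R c1) ^ 2) ^ 2 = z
        have e10 : 8 * Real.tanh R ^ 3 * c1 ^ 2 * z / wf (rch R c1) ^ 2
            * ((3 / 4 + (C.pv r).y ^ 2 / 4) ^ 2 * wf (rch R c1) ^ 2)
            = 8 * Real.tanh R ^ 3 * z * (c1 * (3 / 4 + (C.pv r).y ^ 2 / 4)) ^ 2 := by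
          have := hw1.ne'
          generalize 3 / 4 + (C.pv r).y ^ 2 / 4 = DD
          field_simp
        rw [e10, hc1D]
        ring
      have e6 : 8 * Real.tanh R ^ 3 * (C.pv r).y ^ 2
          * ((C.pv r).P / (wf r ^ 2) ^ 2) / wf r ^ 2 * ((C.pv r).y ^ 4 * wf r ^ 2)
          = 8 * Real.tanh R ^ 3 * (C.pv r).y ^ 6 * ((C.pv r).P / (wf r ^ 2) ^ 2) := by
        generalize (C.pv r).P / (wf r ^ 2) ^ 2 = z
        field_simp
      rw [e5, e6]
      have := hy.1
      exact mul_le_mul_of_nonneg_left hm (by positivity)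
  have hw2 : 0 < wf r ^ 2 := by positivity
  have i2 : 0 ≤ (C.pv r).Rr := hok.i2
  have i3 : (C.pv r).Pi ≤ (C.pv r).y * (C.pv r).A0 := hok.i3
  have i4a : 3 / 4 * (wf r ^ 2 * ((C.pv r).A0 - (C.pv r).Pi / 2))
    ≤ (C.pv r).Fw + wf r ^ 2 * ((C.pv r).Rr / 2) := hok.i4a
  have i4b : 3 / 4 * (wf r ^ 2 * ((C.pv r).A0 - (C.pv r).Pi * (1 + (C.pv r).y)
      / (2 * (C.pv r).y))) ≤ (C.pv r).Fw + wf r ^ 2 * ((C.pv r).Rr / 2) := hok.i4b
  have e7 : (1 - (C.pw r).w ^ 2) * (C.pw r).y ^ 4 = Real.tanh R ^ 2 * (C.pv r).y ^ 6 := by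
    have e8 : (C.pw r).w = wf r := rfl
    have e9 : (C.pw r).y = (C.pv r).y := rfl
    rw [e8, e9, hwy]
    ring
  have i5a := hok.i5a
  have i5b := hok.i5b
  rw [e7] at i5a i5b
  have key := hstruct.core (A := (C.pv r).A0) (Pi := (C.pv r).Pi) (Rr := (C.pv r).Rr) i2 i3
    (by
      have h1 : wf r ^ 2 * (3 / 4 * ((C.pv r).A0 - (C.pv r).Pi / 2))
          ≤ wf r ^ 2 * ((C.pv r).Fw / wf r ^ 2 + (C.pv r).Rr / 2) := by
        have e : wf r ^ 2 * ((C.pv r).Fw / wf r ^ 2 + (C.pv r).Rr / 2)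
            = (C.pv r).Fw + wf r ^ 2 * ((C.pv r).Rr / 2) := by
          field_simp
        rw [e]
        linarith
      exact le_of_mul_le_mul_left h1 hw2)
    (by
      have h1 : wf r ^ 2 * (3 / 4 * ((C.pv r).A0 - (C.pv r).Pi * (1 + (C.pv r).y)
            / (2 * (C.pv r).y)))
          ≤ wf r ^ 2 * ((C.pv r).Fw / wf r ^ 2 + (C.pv r).Rr / 2) := by
        have e : wf r ^ 2 * ((C.pv r).Fw / wf r ^ 2 + (C.pv r).Rr / 2)
            = (C.pv r).Fw + wf r ^ 2 * ((C.pv r).Rr / 2) := by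
          field_simp
        rw [e]
        linarith
      exact le_of_mul_le_mul_left h1 hw2)
    i5a i5b hok.A_pos hc hc1 hc' hc1' hcc
  exact key

/-! ### (N2) -/

theorem LinCert2.B_lower (C : LinCert2 R) (hR : 0 < R) :
    ∀ r c c', 0 < r → 0 < c → c ≤ 1 → 0 < c' → c' ≤ 1 →
    c * c' * (C.d * r - C.f c - C.f c') ≤
      (C.a + ((C.ηr r c' * (1 - c ^ 2)
          + C.η r c' * (Real.cosh r / Real.sinh r) * (((4 : ℕ) : ℝ) - 2 + c ^ 2)
        - |c| * |C.ηc r c'| * Real.sqrt ((1 - c ^ 2) * (1 - c' ^ 2)) / Real.sinh r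
        - (((4 : ℕ) : ℝ) - 1) * (Real.cosh R / Real.sinh R) * c * C.η r c')
      + (C.ηr r c * (1 - c' ^ 2)
          + C.η r c * (Real.cosh r / Real.sinh r) * (((4 : ℕ) : ℝ) - 2 + c' ^ 2)
        - |c'| * |C.ηc r c| * Real.sqrt ((1 - c' ^ 2) * (1 - c ^ 2)) / Real.sinh r
        - (((4 : ℕ) : ℝ) - 1) * (Real.cosh R / Real.sinh R) * c' * C.η r c)) / 2)
        * Real.sinh r ^ (4 - 1) := by
  have hT := tanh_pos hR
  refine lower_of_reduction (R := R) (T := Real.tanh R) (K := C.K) (f := C.f)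
    (BL := fun r c c' => Real.sinh r ^ 3 / (xf r / Real.tanh R)
      * (C.pv r).B ((c + c') / 2) (c * c') (rhos ((c + c') / 2) (c * c')))
    (DL := fun r c c' => Real.sinh r ^ 3 / (xf r * (xf r / Real.tanh R))
      * ((C.pv r).dB ((c + c') / 2) (c * c') (rhos ((c + c') / 2) (c * c'))
        + 3 / 2 * (2 - wf r ^ 2) * (C.pv r).B ((c + c') / 2) (c * c')
          (rhos ((c + c') / 2) (c * c'))))
    (P := fun y c => C.f c - C.f y) hR ?_ ?_ (chord_cos hR) (fun _ _ _ _ _ _ => le_refl _)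
    ?_ ?_ ?_ ?_
  · -- BL ≤ BT
    intro r c c' hr hc hc1 hc' hc1'
    have hy := C.y_pos hR hr
    have ho := C.okv hR hr
    have hk := C.key hR hr ho.Y_np c c' |c| |c'| 1 (Real.sqrt ((1 - c ^ 2) * (1 - c' ^ 2)))
    have e0 : (1 - c' ^ 2) * (1 - c ^ 2) = (1 - c ^ 2) * (1 - c' ^ 2) := by ring
    rw [e0]
    have hroot := root_le hc.le hc1 hc'.le hc1'
    obtain ⟨ρ, hρ⟩ : ∃ ρ, ρ = Real.sqrt ((1 - c ^ 2) * (1 - c' ^ 2)) := ⟨_, rfl⟩
    rw [← hρ] at hk hroot ⊢
    have hGB : (C.pv r).GB ≤ 0 := by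
      unfold Pv.GB
      have := mul_nonneg (sq_nonneg (C.pv r).w) (neg_nonneg.2 ho.Y_np)
      linarith
    have hB : (C.pv r).B ((c + c') / 2) (c * c') (rhos ((c + c') / 2) (c * c'))
        ≤ (C.pv r).B ((c + c') / 2) (c * c') ρ := by
      have e : (C.pv r).B ((c + c') / 2) (c * c') ρ
          - (C.pv r).B ((c + c') / 2) (c * c') (rhos ((c + c') / 2) (c * c'))
          = (c + c') / 2 * (-(C.pv r).GB) * (rhos ((c + c') / 2) (c * c') - ρ) := by
        simp only [Pv.B]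
        ring
      have : 0 ≤ (c + c') / 2 * (-(C.pv r).GB) * (rhos ((c + c') / 2) (c * c') - ρ) :=
        mul_nonneg (mul_nonneg (by positivity) (by linarith)) (by linarith)
      linarith
    have hS : 0 < Real.sinh r ^ 3 := pow_pos (Real.sinh_pos_iff.2 hr) 3
    refine (mul_le_mul_of_nonneg_left hB (div_nonneg hS.le hy.le)).trans (le_of_eq ?_)
    have e1 : (C.pv r).B ((c + c') / 2) (c * c') ρ
        = (C.pv r).y * (C.a + ((C.ηr r c' * (1 - c ^ 2)
        + C.η r c' * (Real.cosh r / Real.sinh r) * (2 + c ^ 2)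
        - |c| * |C.ηc r c'| * ρ / Real.sinh r
        - 1 * (3 * (Real.cosh R / Real.sinh R) * c * C.η r c'))
      + (C.ηr r c * (1 - c' ^ 2) + C.η r c * (Real.cosh r / Real.sinh r) * (2 + c' ^ 2)
        - |c'| * |C.ηc r c| * ρ / Real.sinh r
        - 1 * (3 * (Real.cosh R / Real.sinh R) * c' * C.η r c))) / 2) := by
      rw [hk, abs_of_pos hc, abs_of_pos hc']
      simp only [Pv.B]
      ring
    rw [e1]
    rw [show (4 - 1 : ℕ) = 3 from rfl, show (((4 : ℕ) : ℝ) - 2) = 2 by norm_num,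
      show (((4 : ℕ) : ℝ) - 1) = 3 by norm_num]
    have e3 : ∀ S Z y : ℝ, 0 < y → S / y * (y * Z) = Z * S := by
      intro S Z y hy
      field_simp
    rw [e3 _ _ _ hy]
    ring
  · -- contact
    intro r hr hr2
    have h := chord_cos hR r hr hr2
    rw [C.f_eq h.1.le h.2, rch_tanh hR, LinCert2.F]
    ring
  · -- T1
    intro r c c' hr hr2 hc hc1 hc' hc1'
    have hy := C.y_pos hR hr
    have hS : 0 < Real.sinh r ^ 3 := pow_pos (Real.sinh_pos_iff.2 hr) 3
    have hGB : (C.pv r).GB ≤ 0 := by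
      have ho := C.okv hR hr
      unfold Pv.GB
      have := mul_nonneg (sq_nonneg (C.pv r).w) (neg_nonneg.2 ho.Y_np)
      linarith
    have e2 : (C.pv r).y = xf r / Real.tanh R := rfl
    have e4 : Real.tanh (r / 2) / Real.tanh R = (C.pv r).y := rfl
    beta_reduce
    rw [e4, ← e2, LinCert2.K, ← e2]
    rcases le_total c c' with h | h
    · exact Pv.T1_two hy hS hGB hc hc1 hc' hc1' (C.core hR hr hr2 hc hc1 hc' hc1' h)
    · have h1 := Pv.T1_two hy hS hGB hc' hc1' hc hc1 (C.core hR hr hr2 hc' hc1' hc hc1 h)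
      rw [add_comm c c', mul_comm c c']
      refine le_trans (le_of_eq ?_) h1
      ring
  · -- continuity
    intro c c' _ _ _ _ r hr
    have hr0 : 0 < r := by
      have : 2 * R ≤ r := hr
      linarith
    have h1 := (ll_sinh hr0).continuousAt
    have h2 := (ll_y (Real.tanh R) hr0).continuousAt
    have h3 := (C.d_B hr0 ((c + c') / 2) (c * c') (rhos ((c + c') / 2) (c * c'))).continuousAt
    exact ((h1.div h2 (div_pos (xf_pos hr0) hT).ne').mul h3).continuousWithinAt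
  · -- derivative
    intro r c c' hr _ _ _ _
    have hr0 : 0 < r := by linarith
    have hx := (xf_pos hr0).ne'
    have hy : xf r / Real.tanh R ≠ 0 := (div_pos (xf_pos hr0) hT).ne'
    have h1 := ll_sinh hr0
    have h2 := ll_y (Real.tanh R) hr0
    have h3 := C.d_B hr0 ((c + c') / 2) (c * c') (rhos ((c + c') / 2) (c * c'))
    refine ((h1.fun_div h2 hy).fun_mul h3).congr_deriv ?_
    generalize (C.pv r).B ((c + c') / 2) (c * c') (rhos ((c + c') / 2) (c * c')) = B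
    generalize (C.pv r).dB ((c + c') / 2) (c * c') (rhos ((c + c') / 2) (c * c')) = dB
    generalize xf r / Real.tanh R = y at hy
    field_simp
    ring
  · -- T2
    intro r c c' hr hc hc1 hc' hc1'
    have hr0 : 0 < r := by linarith
    have hx := xf_pos hr0
    have hw := wf_pos r
    have hy := C.y_pos hR hr0
    have hw1 : (C.pv r).w ^ 2 ≤ 1 := by
      have e : (C.pv r).w = wf r := rfl
      rw [e]
      have := wf_lt_one hr0
      nlinarith
    have h := Pv.T2' hw1 (C.okr' hR hr) hc.le hc1 hc'.le hc1'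
    have e1 : (C.pv r).w = wf r := rfl
    rw [e1] at h
    have e2 : (C.pv r).y = xf r / Real.tanh R := rfl
    beta_reduce
    rw [e2] at h
    have hx2 : 1 - wf r ^ 2 = xf r ^ 2 := by linarith [xf_sq_add_wf_sq r]
    rw [hx2] at h
    rw [sinh_three]
    have hpos : 0 < 8 / (wf r ^ 6 * (xf r / Real.tanh R)) := by
      have : 0 < xf r / Real.tanh R := by positivity
      positivity
    have h2 := mul_le_mul_of_nonneg_left h hpos.le
    refine le_trans (le_of_eq ?_) (h2.trans (le_of_eq ?_))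
    · field_simp
    · generalize (C.pv r).B ((c + c') / 2) (c * c') (rhos ((c + c') / 2) (c * c')) = B
      generalize (C.pv r).dB ((c + c') / 2) (c * c') (rhos ((c + c') / 2) (c * c')) = dB
      field_simp

end Vale.Agent.Lib.P219.Lin
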