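import Vale.Agent.Lib.P219.K.Lin2.B2
import Vale.Agent.Lib.P219.K.Lin2.Lower2
import Vale.Agent.Lib.P219.K.Lin.LinRaw

/-!
# P219, curvature `-1`, dimension four: from linear certificates (second form) to raw certificates
-/

namespace Vale.Agent.Lib.P219.Lin

open MeasureTheory Set Filter Topology

variable {R : ℝ}

theorem LinCert2.gdiag_eq (C : LinCert2 R) (hR : 0 < R) {c : ℝ} (hc : 0 < c) (hc1 : c ≤ 1) :
    C.a + gdiag R C.η C.ηr C.ηc c = (C.pv (rch R c)).b := by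
  have hr := rch_pos hR hc hc1
  have hT := (tanh_pos hR).ne'
  have hx := xf_rch hR hc.le hc1
  have hw := (wf_pos (rch R c)).ne'
  unfold gdiag
  rw [C.ηr_eq hr, coth_eq_wf hr, coth_eq_inv hR, sinh_eq_xf]
  simp only [LinCert2.η, LinCert2.ηc, eta, etac, Pv.A1, Pv.b, LinCert2.pv, hx]
  field_simp
  ring

theorem LinCert2.tendsto_zero (C : LinCert2 R) (hR : 0 < R) :
    Tendsto (fun c => Real.sinh (rch R c) ^ 2 * C.η (rch R c) c) (𝓝[>] 0) (𝓝 0) := by
  have h1 : Tendsto (fun c => rch R c) (𝓝[>] 0) (𝓝 0) := by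
    have h := (continuousOn_rch hR) 0 ⟨le_rfl, zero_le_one⟩
    have h2 : Tendsto (fun c => rch R c) (𝓝[Icc 0 1] 0) (𝓝 (rch R 0)) := h
    rw [ll_rch_zero] at h2
    refine h2.mono_left ?_
    refine nhdsWithin_le_of_mem ?_
    filter_upwards [Ioo_mem_nhdsGT (zero_lt_one' ℝ)] with c hc using ⟨hc.1.le, hc.2.le⟩
  have h2 : Tendsto (fun c => Real.sinh (rch R c) ^ 2 * (3 * C.M)) (𝓝[>] 0) (𝓝 0) := by
    have h3 : Tendsto (fun c => Real.sinh (rch R c) ^ 2 * (3 * C.M)) (𝓝[>] 0)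
        (𝓝 (Real.sinh 0 ^ 2 * (3 * C.M))) :=
      (((Real.continuous_sinh.tendsto 0).comp h1).pow 2).mul_const _
    simpa using h3
  refine squeeze_zero_norm' ?_ h2
  filter_upwards [Ioo_mem_nhdsGT (zero_lt_one' ℝ)] with c hc
  have hr := rch_pos hR hc.1 hc.2.le
  obtain ⟨a1, -, a3, -⟩ := C.bdd _ (wf_pos (rch R c)) (wf_lt_one hr)
  have hM : 0 ≤ C.M := (abs_nonneg _).trans a1
  rw [Real.norm_eq_abs, abs_mul, abs_of_nonneg (sq_nonneg _)]
  refine mul_le_mul_of_nonneg_left ?_ (sq_nonneg _)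
  have hx0 := xf_pos hr
  have hx1 := xf_lt_one (rch R c)
  have hx := xf_rch hR hc.1.le hc.2.le
  unfold LinCert2.η eta
  rw [← hx, sub_self, mul_zero, add_zero, abs_mul, abs_of_pos hx0]
  have : xf (rch R c) * |C.q (wf (rch R c))| ≤ 1 * C.M := mul_le_mul hx1.le a1 (abs_nonneg _) zero_le_one
  linarith

theorem LinCert2.final (C : LinCert2 R) (hR : 0 < R) (e : Ev 4) (he : ‖e‖ = 1) :
    C.a * areaM 4 R ^ 2
      + (∫ ω : Metric.sphere (0 : Ev 4) 1, |inner ℝ (ω : Ev 4) e| * C.f |inner ℝ (ω : Ev 4) e|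
        ∂(volume : Measure (Ev 4)).toSphere) * areaM 4 R = C.d * ((4 : ℕ) * om 4 * volM 4 R) := by
  refine final_four hR C.smooth C.deriv_r C.deriv_c (C.tendsto_zero hR) C.a C.d C.f
    (C.f_cont hR).continuousOn ?_ e he
  intro c hc hc1
  rw [C.gdiag_eq hR hc hc1.le, C.f_eq hc.le hc1.le]
  unfold LinCert2.F LinCert2.K
  rw [xf_rch hR hc.le hc1.le]
  have hT := (tanh_pos hR).ne'
  field_simp

theorem wf_mul_sinh (r : ℝ) :
    wf r * Real.sinh r ^ 3 = 8 * (Real.sinh (r / 2) ^ 3 * Real.cosh (r / 2) ^ 2) := by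
  have h : Real.sinh r = 2 * Real.sinh (r / 2) * Real.cosh (r / 2) := by
    rw [← Real.sinh_two_mul]
    ring_nf
  rw [h, wf]
  have := (Real.cosh_pos (r / 2)).ne'
  field_simp
  ring

theorem wf_mul_sinh_mono {r s : ℝ} (hr : 0 < r) (hrs : r ≤ s) :
    wf r * Real.sinh r ^ 3 ≤ wf s * Real.sinh s ^ 3 := by
  rw [wf_mul_sinh, wf_mul_sinh]
  have h1 : 0 ≤ Real.sinh (r / 2) := Real.sinh_nonneg_iff.2 (by linarith)
  have h2 : Real.sinh (r / 2) ≤ Real.sinh (s / 2) := Real.sinh_le_sinh.2 (by linarith)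
  have h3 : Real.cosh (r / 2) ≤ Real.cosh (s / 2) := by
    rw [Real.cosh_le_cosh, abs_of_pos (by linarith), abs_of_pos (by linarith)]
    linarith
  have h4 := Real.cosh_pos (r / 2)
  have h5 := pow_le_pow_left₀ h1 h2 3
  have h6 := pow_le_pow_left₀ h4.le h3 2
  have h7 := mul_le_mul h5 h6 (pow_nonneg h4.le 2) (pow_nonneg (h1.trans h2) 3)
  linarith

theorem contDiff_wf : ContDiff ℝ 1 wf := by
  have h : wf = fun r => 1 / Real.cosh (r / 2) := rfl
  rw [h]
  exact contDiff_const.div (Real.contDiff_cosh.comp (contDiff_id.div_const 2))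
    (fun r => (Real.cosh_pos _).ne')

/-- the raw certificate -/
noncomputable def LinCert2.raw (hR : 0 < R) (C : LinCert2 R) : RawCertH 4 R where
  η := C.η
  ηr := C.ηr
  ηc := C.ηc
  smooth := C.smooth
  deriv_r := C.deriv_r
  deriv_c := C.deriv_c
  bound := C.bound hR
  η_nonneg := C.η_nonneg hR
  a := C.a
  a_pos := C.a_pos
  d := C.d
  d_pos := C.d_pos
  f := C.f
  f_cont := C.f_cont hR
  f_nonneg := C.f_nonneg hR
  h := fun r => C.hk r * Real.sinh r ^ 3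
  h_smooth := by
    refine ContDiff.contDiffOn ?_
    unfold LinCert2.hk
    exact (contDiff_const.add (contDiff_const.mul contDiff_wf)).mul (Real.contDiff_sinh.pow 3)
  h_nonneg := fun r hr => mul_nonneg (C.hk_nonneg r)
    (pow_nonneg (Real.sinh_nonneg_iff.2 hr.le) 3)
  h_mono := fun r s hr hrs => by
    have h1 : Real.sinh r ^ 3 ≤ Real.sinh s ^ 3 :=
      pow_le_pow_left₀ (Real.sinh_nonneg_iff.2 hr.le) (Real.sinh_le_sinh.2 hrs) 3
    have h2 := mul_le_mul_of_nonneg_left h1 C.hk0_nonneg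
    have h3 := mul_le_mul_of_nonneg_left (wf_mul_sinh_mono hr hrs) C.hk1_nonneg
    simp only [LinCert2.hk]
    linarith
  B_zero := C.B_zero hR
  B_slope := C.B_slope hR
  B_comp := C.B_comp hR
  B_comp' := C.B_comp' hR
  B_lower := C.B_lower hR
  final := fun e he => (C.final hR e he).le

end Vale.Agent.Lib.P219.Lin
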