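import Vale.Agent.Lib.P219.K.Lin2.StrictLower
import Vale.Agent.Lib.P219.K.Lin2.Raw2
import Vale.Agent.Lib.P219.K.Ri.Defs

/-! # P219, curvature `-1`, dimension four: strict linear certificates give strict certificates -/

namespace Vale.Agent.Lib.P219.Lin

open Set Filter Topology

variable {R : ℝ}

theorem LinCert2.raw_B (C : LinCert2 R) (hR : 0 < R) (r c c' : ℝ) :
    (C.raw hR).B r c c' = C.a + ((C.ηr r c' * (1 - c ^ 2)
        + C.η r c' * (Real.cosh r / Real.sinh r) * (((4 : ℕ) : ℝ) - 2 + c ^ 2)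
        - |c| * |C.ηc r c'| * Real.sqrt ((1 - c ^ 2) * (1 - c' ^ 2)) / Real.sinh r
        - (((4 : ℕ) : ℝ) - 1) * (Real.cosh R / Real.sinh R) * c * C.η r c')
      + (C.ηr r c * (1 - c' ^ 2)
        + C.η r c * (Real.cosh r / Real.sinh r) * (((4 : ℕ) : ℝ) - 2 + c' ^ 2)
        - |c'| * |C.ηc r c| * Real.sqrt ((1 - c' ^ 2) * (1 - c ^ 2)) / Real.sinh r
        - (((4 : ℕ) : ℝ) - 1) * (Real.cosh R / Real.sinh R) * c' * C.η r c)) / 2 := rfl

theorem LinCert2.Strict.raw {C : LinCert2 R} (h : C.Strict) (hR : 0 < R) :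
    (C.raw hR).Strict where
  zero := fun r x y hr hx hy => by
    refine (h.B_zero hR r x y hr hx hy).trans_eq ?_
    have e : (C.raw hR).Bm 0 r x y = C.a + ((C.ηr r y * (1 - x ^ 2)
        + C.η r y * (Real.cosh r / Real.sinh r) * (((4 : ℕ) : ℝ) - 2 + x ^ 2)
        - |x| * |C.ηc r y| * Real.sqrt ((1 - x ^ 2) * (1 - y ^ 2)) / Real.sinh r
        - 0 * x * C.η r y)
      + (C.ηr r x * (1 - y ^ 2)
        + C.η r x * (Real.cosh r / Real.sinh r) * (((4 : ℕ) : ℝ) - 2 + y ^ 2)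
        - |y| * |C.ηc r x| * Real.sqrt ((1 - y ^ 2) * (1 - x ^ 2)) / Real.sinh r
        - 0 * y * C.η r x)) / 2 := rfl
    rw [e]
    ring
  slope := fun r x y hr hx hx1 hy hy1 => h.B_slope hR r x y hr hx hx1 hy hy1
  comp := fun r x y hr hx hx1 hy hy1 => h.B_comp hR r x y hr hx hx1 hy hy1
  comp' := fun r γ y hr hγ hγ1 hy hy1 => by
    refine (h.B_comp' hR r γ y hr hγ hγ1 hy hy1).trans_eq ?_
    rw [RawCertH.Kk, C.raw_B hR, abs_neg, neg_sq]
    ring
  lower := fun r x y hr hx hx1 hy hy1 heq => h.lower hR hr hx hx1 hy hy1 heq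

end Vale.Agent.Lib.P219.Lin
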