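import Vale.Agent.Lib.P219.K.Lin2.StrictDefs
import Vale.Agent.Lib.P219.K.Lin2.B2

/-!
# P219, curvature `-1`, dimension four: strict inequalities for the pair kernel
-/

namespace Vale.Agent.Lib.P219.Lin

open Set Filter Topology

variable {R : ℝ}

/-- the values at distance `r`, with `a` replaced by `a - e` -/
noncomputable def LinCert2.pve (C : LinCert2 R) (e r : ℝ) : Pv :=
  Pv.mk (wf r) (xf r / Real.tanh R) (C.a - e) (C.q (wf r)) (C.dq (wf r)) (C.ddq (wf r))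
    (C.Y (wf r)) (C.dY (wf r)) (C.ddY (wf r))

theorem LinCert2.Strict.pve {C : LinCert2 R} (h : C.Strict) (hR : 0 < R) {r : ℝ} (hr : 0 < r) :
    ∃ e : ℝ, 0 < e ∧ (C.pve e r).OK2 (C.hk r) :=
  h.ok_s _ _ (wf_pos r) (wf_lt_one hr) (C.y_pos hR hr) (C.y_sq hR r)

theorem LinCert2.pve_B (C : LinCert2 R) (e r m p ρ : ℝ) :
    (C.pve e r).B m p ρ = (C.pv r).B m p ρ - (C.pv r).y * e := by
  simp only [Pv.B, Pv.A1, Pv.KA, Pv.B1, Pv.KB, Pv.GB, LinCert2.pve, LinCert2.pv]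
  ring

theorem LinCert2.Strict.B_zero {C : LinCert2 R} (h0 : C.Strict) (hR : 0 < R) (r c c' : ℝ)
    (hr : 0 < r) (hc : |c| ≤ 1) (hc' : |c'| ≤ 1) :
    0 < C.a + ((C.ηr r c' * (1 - c ^ 2)
        + C.η r c' * (Real.cosh r / Real.sinh r) * (((4 : ℕ) : ℝ) - 2 + c ^ 2)
        - |c| * |C.ηc r c'| * Real.sqrt ((1 - c ^ 2) * (1 - c' ^ 2)) / Real.sinh r)
      + (C.ηr r c * (1 - c' ^ 2)
        + C.η r c * (Real.cosh r / Real.sinh r) * (((4 : ℕ) : ℝ) - 2 + c' ^ 2)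
        - |c'| * |C.ηc r c| * Real.sqrt ((1 - c' ^ 2) * (1 - c ^ 2)) / Real.sinh r)) / 2 := by
  have hy := C.y_pos hR hr
  obtain ⟨e, he, hok⟩ := h0.pve hR hr
  have h := zero_core_2 hok (pv_w_sq2 C hr) hc hc'
  have hkey := C.key hR hr (C.Y_nonpos hR hr) c c' |c| |c'| 0 (√((1 - c ^ 2) * (1 - c' ^ 2)))
  have e1 : (1 - c' ^ 2) * (1 - c ^ 2) = (1 - c ^ 2) * (1 - c' ^ 2) := by ring
  rw [e1]
  set ρ := √((1 - c ^ 2) * (1 - c' ^ 2)) with hρ
  set X := C.a + ((C.ηr r c' * (1 - c ^ 2)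
        + C.η r c' * (Real.cosh r / Real.sinh r) * (((4 : ℕ) : ℝ) - 2 + c ^ 2)
        - |c| * |C.ηc r c'| * ρ / Real.sinh r)
      + (C.ηr r c * (1 - c' ^ 2)
        + C.η r c * (Real.cosh r / Real.sinh r) * (((4 : ℕ) : ℝ) - 2 + c' ^ 2)
        - |c'| * |C.ηc r c| * ρ / Real.sinh r)) / 2 with hX
  have e2 : (C.pv r).y * X = (C.pv r).y * ((C.pv r).a + (C.pv r).A1 * (1 - (c ^ 2 + c' ^ 2) / 2)
        + (C.pv r).KA * (2 + (c ^ 2 + c' ^ 2) / 2)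
        - 0 * 3 * ((C.pv r).y * ((C.pv r).q - (C.pv r).Y) * ((c + c') / 2)
          + (C.pv r).Y * (c * c')))
      + (c + c') / 2 * ((C.pv r).B1 * (1 - c * c') + (C.pv r).KB * (2 + c * c'))
      + (C.pv r).GB * ((|c| + |c'|) / 2 * ρ) := by
    rw [← hkey, hX]
    push_cast
    ring
  have e3 : (C.pv r).y * X = ((C.pve e r).y * ((C.pve e r).a
        + (C.pve e r).A1 * (1 - (c ^ 2 + c' ^ 2) / 2)
        + (C.pve e r).KA * (2 + (c ^ 2 + c' ^ 2) / 2)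
        - 0 * 3 * ((C.pve e r).y * ((C.pve e r).q - (C.pve e r).Y) * ((c + c') / 2)
          + (C.pve e r).Y * (c * c')))
      + (c + c') / 2 * ((C.pve e r).B1 * (1 - c * c') + (C.pve e r).KB * (2 + c * c'))
      + (C.pve e r).GB * ((|c| + |c'|) / 2 * ρ)) + (C.pv r).y * e := by
    rw [e2]
    simp only [Pv.A1, Pv.KA, Pv.B1, Pv.KB, Pv.GB, LinCert2.pve, LinCert2.pv]
    ring
  have h3 : 0 < (C.pv r).y * X := by
    rw [e3]
    have := mul_pos hy he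
    linarith
  exact pos_of_mul_pos_right h3 hy.le

theorem LinCert2.Strict.B_slope {C : LinCert2 R} (h0 : C.Strict) (hR : 0 < R) (r c c' : ℝ)
    (hr : 0 < r) (hc : 0 ≤ c) (hc1 : c ≤ 1) (hc' : 0 ≤ c') (hc1' : c' ≤ 1) :
    0 < C.a + ((C.ηr r c' * (1 - c ^ 2)
        + C.η r c' * (Real.cosh r / Real.sinh r) * (((4 : ℕ) : ℝ) - 2 + c ^ 2)
        - |c| * |C.ηc r c'| * Real.sqrt ((1 - c ^ 2) * (1 - c' ^ 2)) / Real.sinh r
        - (((4 : ℕ) : ℝ) - 1) * (Real.cosh R / Real.sinh R) * c * C.η r c')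
      + (C.ηr r c * (1 - c' ^ 2)
        + C.η r c * (Real.cosh r / Real.sinh r) * (((4 : ℕ) : ℝ) - 2 + c' ^ 2)
        - |c'| * |C.ηc r c| * Real.sqrt ((1 - c' ^ 2) * (1 - c ^ 2)) / Real.sinh r
        - (((4 : ℕ) : ℝ) - 1) * (Real.cosh R / Real.sinh R) * c' * C.η r c)) / 2
      + c * c' * Real.sqrt (C.η r c * C.η r c') / Real.sinh r := by
  have hy := C.y_pos hR hr
  have hT := tanh_pos hR
  have hx := xf_pos hr
  have hw := wf_pos r
  obtain ⟨e, he, hok⟩ := h0.pve hR hr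
  have h := slope_core_2 hok hc hc1 hc' hc1'
  have hE : (C.pve e r).w ^ 2 / 2 * (C.pve e r).E = (C.pv r).w ^ 2 / 2 * (C.pv r).E := rfl
  have hGB : (C.pve e r).GB = (C.pv r).GB := rfl
  rw [C.pve_B, hE, hGB] at h
  have hkey := C.key_vis hR hr hc hc'
  have hη1 := C.η_one_nonneg hR hr
  have hY := C.Y_nonpos hR hr
  set sg := √((1 - c) * (1 - c')) with hsg
  have hsg0 : 0 ≤ sg := Real.sqrt_nonneg _
  have hsg2 : sg ^ 2 = (1 - c) * (1 - c') := Real.sq_sqrt (mul_nonneg (by linarith) (by linarith))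
  -- lower bound for the geometric mean
  have hgm : C.η r 1 + -(C.Y (wf r)) * Real.tanh R * sg ≤ Real.sqrt (C.η r c * C.η r c') := by
    refine Real.le_sqrt_of_sq_le ?_
    rw [C.η_eq r c, C.η_eq r c']
    set β := -(C.Y (wf r)) * Real.tanh R with hβ
    have hβ0 : 0 ≤ β := mul_nonneg (by linarith) hT.le
    have h2 : 2 * sg ≤ (1 - c) + (1 - c') := by
      nlinarith [sq_nonneg ((1 - c) - (1 - c')), hsg2, hsg0]
    have h3 := mul_le_mul_of_nonneg_left h2 (mul_nonneg hη1 hβ0)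
    have h4 : (C.η r 1 + β * sg) ^ 2 = C.η r 1 ^ 2 + C.η r 1 * β * (2 * sg) + β ^ 2 * sg ^ 2 := by ring
    rw [h4, hsg2]
    nlinarith
  have hfin : 0 < (C.pv r).y * (C.a + ((C.ηr r c' * (1 - c ^ 2)
        + C.η r c' * (Real.cosh r / Real.sinh r) * (((4 : ℕ) : ℝ) - 2 + c ^ 2)
        - |c| * |C.ηc r c'| * Real.sqrt ((1 - c ^ 2) * (1 - c' ^ 2)) / Real.sinh r
        - (((4 : ℕ) : ℝ) - 1) * (Real.cosh R / Real.sinh R) * c * C.η r c')
      + (C.ηr r c * (1 - c' ^ 2)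
        + C.η r c * (Real.cosh r / Real.sinh r) * (((4 : ℕ) : ℝ) - 2 + c' ^ 2)
        - |c'| * |C.ηc r c| * Real.sqrt ((1 - c' ^ 2) * (1 - c ^ 2)) / Real.sinh r
        - (((4 : ℕ) : ℝ) - 1) * (Real.cosh R / Real.sinh R) * c' * C.η r c)) / 2
      + c * c' * Real.sqrt (C.η r c * C.η r c') / Real.sinh r) := by
    rw [mul_add, hkey]
    have e1 : (C.pv r).y * (c * c' * Real.sqrt (C.η r c * C.η r c') / Real.sinh r)
        = c * c' * (wf r ^ 2 / (2 * Real.tanh R)) * Real.sqrt (C.η r c * C.η r c') := by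
      rw [sinh_eq_xf]
      simp only [LinCert2.pv]
      field_simp
    rw [e1]
    have e2 : c * c' * (wf r ^ 2 / (2 * Real.tanh R)) * (C.η r 1 + -(C.Y (wf r)) * Real.tanh R * sg)
        = c * c' * ((C.pv r).w ^ 2 / 2 * (C.pv r).E) - (C.pv r).GB * (c * c' * sg) := by
      rw [C.η_one hR]
      simp only [Pv.GB]
      have : (C.pv r).w = wf r := rfl
      have h2 : (C.pv r).Y = C.Y (wf r) := rfl
      rw [this, h2]
      field_simp
      ring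
    have e3 : c * c' * (wf r ^ 2 / (2 * Real.tanh R)) * (C.η r 1 + -(C.Y (wf r)) * Real.tanh R * sg)
        ≤ c * c' * (wf r ^ 2 / (2 * Real.tanh R)) * Real.sqrt (C.η r c * C.η r c') :=
      mul_le_mul_of_nonneg_left hgm (by positivity)
    rw [e2] at e3
    have := mul_pos hy he
    linarith
  exact pos_of_mul_pos_right hfin hy.le

theorem LinCert2.Strict.B_comp {C : LinCert2 R} (h0 : C.Strict) (hR : 0 < R) (r c c' : ℝ)
    (hr : 0 < r) (hc : 0 ≤ c) (hc1 : c ≤ 1) (hc' : 0 ≤ c') (hc1' : c' ≤ 1) :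
    -(c * ((C.hk r) * Real.sinh r ^ 3)) < (C.a + ((C.ηr r c' * (1 - c ^ 2)
        + C.η r c' * (Real.cosh r / Real.sinh r) * (((4 : ℕ) : ℝ) - 2 + c ^ 2)
        - |c| * |C.ηc r c'| * Real.sqrt ((1 - c ^ 2) * (1 - c' ^ 2)) / Real.sinh r
        - (((4 : ℕ) : ℝ) - 1) * (Real.cosh R / Real.sinh R) * c * C.η r c')
      + (C.ηr r c * (1 - c' ^ 2)
        + C.η r c * (Real.cosh r / Real.sinh r) * (((4 : ℕ) : ℝ) - 2 + c' ^ 2)
        - |c'| * |C.ηc r c| * Real.sqrt ((1 - c' ^ 2) * (1 - c ^ 2)) / Real.sinh r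
        - (((4 : ℕ) : ℝ) - 1) * (Real.cosh R / Real.sinh R) * c' * C.η r c)) / 2)
      * Real.sinh r ^ (4 - 1) := by
  have hy := C.y_pos hR hr
  obtain ⟨ε, he, hok⟩ := h0.pve hR hr
  have h := comp_core_2 hok hc hc1 hc' hc1'
  have hye : (C.pve ε r).y = (C.pv r).y := rfl
  rw [C.pve_B, hye] at h
  have hkey := C.key_vis hR hr hc hc'
  have hs : 0 < Real.sinh r := Real.sinh_pos_iff.2 hr
  rw [← hkey] at h
  set X := C.a + ((C.ηr r c' * (1 - c ^ 2)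
        + C.η r c' * (Real.cosh r / Real.sinh r) * (((4 : ℕ) : ℝ) - 2 + c ^ 2)
        - |c| * |C.ηc r c'| * Real.sqrt ((1 - c ^ 2) * (1 - c' ^ 2)) / Real.sinh r
        - (((4 : ℕ) : ℝ) - 1) * (Real.cosh R / Real.sinh R) * c * C.η r c')
      + (C.ηr r c * (1 - c' ^ 2)
        + C.η r c * (Real.cosh r / Real.sinh r) * (((4 : ℕ) : ℝ) - 2 + c' ^ 2)
        - |c'| * |C.ηc r c| * Real.sqrt ((1 - c' ^ 2) * (1 - c ^ 2)) / Real.sinh r
        - (((4 : ℕ) : ℝ) - 1) * (Real.cosh R / Real.sinh R) * c' * C.η r c)) / 2 with hX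
  have h1 : 0 < (C.pv r).y * (X + c * c' * (C.hk r)) := by
    have e : (C.pv r).y * (X + c * c' * (C.hk r)) = (C.pv r).y * X + c * c' * ((C.hk r) * (C.pv r).y) := by
      ring
    rw [e]
    have := mul_pos hy he
    linarith
  have h2 := pos_of_mul_pos_right h1 hy.le
  have h3 : c * c' * (C.hk r) ≤ c * (C.hk r) := by
    have := mul_nonneg hc (C.hk_nonneg r)
    nlinarith
  have h4 : 0 < X + c * (C.hk r) := by linarith
  have h5 := mul_pos h4 (pow_pos hs 3)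
  have e4 : 4 - 1 = 3 := rfl
  rw [e4]
  linarith

theorem LinCert2.Strict.B_comp' {C : LinCert2 R} (h0 : C.Strict) (hR : 0 < R) (r γ c' : ℝ)
    (hr : 0 < r) (hc : 0 ≤ γ) (hc1 : γ ≤ 1) (hc' : 0 ≤ c') (hc1' : c' ≤ 1) :
    γ * ((C.hk r) * Real.sinh r ^ 3) < (C.a + ((C.ηr r c' * (1 - γ ^ 2)
        + C.η r c' * (Real.cosh r / Real.sinh r) * (((4 : ℕ) : ℝ) - 2 + γ ^ 2)
        - |γ| * |C.ηc r c'| * Real.sqrt ((1 - γ ^ 2) * (1 - c' ^ 2)) / Real.sinh r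
        + (((4 : ℕ) : ℝ) - 1) * (Real.cosh R / Real.sinh R) * γ * C.η r c')
      + (C.ηr r (-γ) * (1 - c' ^ 2)
        + C.η r (-γ) * (Real.cosh r / Real.sinh r) * (((4 : ℕ) : ℝ) - 2 + c' ^ 2)
        - |c'| * |C.ηc r (-γ)| * Real.sqrt ((1 - c' ^ 2) * (1 - γ ^ 2)) / Real.sinh r
        - (((4 : ℕ) : ℝ) - 1) * (Real.cosh R / Real.sinh R) * c' * C.η r (-γ))) / 2)
      * Real.sinh r ^ (4 - 1) := by
  have hy := C.y_pos hR hr
  obtain ⟨ε, he, hok⟩ := h0.pve hR hr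
  have h := comp_core'_2 hok hc hc1 hc' hc1'
  have hkey := C.key hR hr (C.Y_nonpos hR hr) (-γ) c' γ c' 1 (√((1 - γ ^ 2) * (1 - c' ^ 2)))
  have hs : 0 < Real.sinh r := Real.sinh_pos_iff.2 hr
  have e1 : (1 - c' ^ 2) * (1 - γ ^ 2) = (1 - γ ^ 2) * (1 - c' ^ 2) := by ring
  rw [e1, abs_of_nonneg hc, abs_of_nonneg hc']
  set ρ := √((1 - γ ^ 2) * (1 - c' ^ 2)) with hρ
  set X := C.a + ((C.ηr r c' * (1 - γ ^ 2)
        + C.η r c' * (Real.cosh r / Real.sinh r) * (((4 : ℕ) : ℝ) - 2 + γ ^ 2)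
        - γ * |C.ηc r c'| * ρ / Real.sinh r
        + (((4 : ℕ) : ℝ) - 1) * (Real.cosh R / Real.sinh R) * γ * C.η r c')
      + (C.ηr r (-γ) * (1 - c' ^ 2)
        + C.η r (-γ) * (Real.cosh r / Real.sinh r) * (((4 : ℕ) : ℝ) - 2 + c' ^ 2)
        - c' * |C.ηc r (-γ)| * ρ / Real.sinh r
        - (((4 : ℕ) : ℝ) - 1) * (Real.cosh R / Real.sinh R) * c' * C.η r (-γ))) / 2 with hX
  have e2 : (C.pv r).y * X = (C.pv r).y * ((C.pv r).a
      + (C.pv r).A1 * (1 - (γ ^ 2 + c' ^ 2) / 2) + (C.pv r).KA * (2 + (γ ^ 2 + c' ^ 2) / 2)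
        - 3 * ((C.pv r).y * ((C.pv r).q - (C.pv r).Y) * ((-γ + c') / 2)
          + (C.pv r).Y * (-γ * c')))
      + (-γ + c') / 2 * ((C.pv r).B1 * (1 - -γ * c') + (C.pv r).KB * (2 + -γ * c'))
      + (C.pv r).GB * ((γ + c') / 2 * ρ) := by
    have e3 : (-γ) ^ 2 = γ ^ 2 := by ring
    rw [e3] at hkey
    have e4 : (C.pv r).y * X = (C.pv r).y * (C.a + ((C.ηr r c' * (1 - γ ^ 2)
        + C.η r c' * (Real.cosh r / Real.sinh r) * (2 + γ ^ 2)
        - γ * |C.ηc r c'| * ρ / Real.sinh r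
        - 1 * (3 * (Real.cosh R / Real.sinh R) * (-γ) * C.η r c'))
      + (C.ηr r (-γ) * (1 - c' ^ 2)
        + C.η r (-γ) * (Real.cosh r / Real.sinh r) * (2 + c' ^ 2)
        - c' * |C.ηc r (-γ)| * ρ / Real.sinh r
        - 1 * (3 * (Real.cosh R / Real.sinh R) * c' * C.η r (-γ)))) / 2) := by
      rw [hX]
      push_cast
      ring
    rw [e4, hkey]
    ring
  have e5 : (C.pv r).y * X = ((C.pve ε r).y * ((C.pve ε r).a
      + (C.pve ε r).A1 * (1 - (γ ^ 2 + c' ^ 2) / 2) + (C.pve ε r).KA * (2 + (γ ^ 2 + c' ^ 2) / 2)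
        - 3 * ((C.pve ε r).y * ((C.pve ε r).q - (C.pve ε r).Y) * ((-γ + c') / 2)
          + (C.pve ε r).Y * (-γ * c')))
      + (-γ + c') / 2 * ((C.pve ε r).B1 * (1 - -γ * c') + (C.pve ε r).KB * (2 + -γ * c'))
      + (C.pve ε r).GB * ((γ + c') / 2 * ρ)) + (C.pv r).y * ε := by
    rw [e2]
    simp only [Pv.A1, Pv.KA, Pv.B1, Pv.KB, Pv.GB, LinCert2.pve, LinCert2.pv]
    ring
  have hye : (C.pve ε r).y = (C.pv r).y := rfl
  have h1 : 0 < (C.pv r).y * (X - γ * (C.hk r)) := by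
    have e : (C.pv r).y * (X - γ * (C.hk r)) = (C.pv r).y * X - γ * ((C.hk r) * (C.pv r).y) := by ring
    rw [e, e5]
    rw [hye] at h ⊢
    have := mul_pos hy he
    linarith
  have h2 := pos_of_mul_pos_right h1 hy.le
  have h5 := mul_pos h2 (pow_pos hs 3)
  have e4 : 4 - 1 = 3 := rfl
  rw [e4]
  linarith

end Vale.Agent.Lib.P219.Lin
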