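import Vale.Agent.Lib.P219.K.Lin2.StrictB
import Vale.Agent.Lib.P219.K.Lin2.Lower2

/-! # P219, curvature `-1`, dimension four: equality in the bound (N2) of a strict certificate -/

namespace Vale.Agent.Lib.P219.Lin

open Set Filter Topology

variable {R : ℝ}

theorem LinCert2.twoH (C : LinCert2 R) (hR : 0 < R) {r : ℝ} (hr : 0 < r) (hr2 : r ≤ 2 * R) :
    TwoH (Real.tanh R ^ 2) (C.pv r).y (C.pv r).P ((C.pv r).Fw / wf r ^ 2)
      (Real.sinh r ^ 3) C.f C.φ := by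
  have hT := tanh_pos hR
  have hT1 := Real.tanh_lt_one R
  have hok := C.okl' hR hr hr2
  have hy := chord_cos hR r hr hr2
  have hyy : (C.pv r).y = Real.tanh (r / 2) / Real.tanh R := rfl
  rw [← hyy] at hy
  have hrch : rch R (C.pv r).y = r := by rw [hyy]; exact rch_tanh hR
  have hw := wf_pos r
  have hxy : xf r = Real.tanh R * (C.pv r).y := by
    rw [hyy]
    unfold xf
    field_simp
  have hwy : wf r ^ 2 = 1 - Real.tanh R ^ 2 * (C.pv r).y ^ 2 := by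
    have := xf_sq_add_wf_sq r
    rw [hxy] at this
    linarith
  have hφy : C.φ (C.pv r).y = Real.sinh r ^ 3 * (C.pv r).P / (C.pv r).y := by
    have h1 : C.G (C.pv r).y = 8 * Real.tanh R ^ 3 * (C.pv r).P / wf r ^ 6 := by
      rw [LinCert2.G, hrch]
    have hy0 := hy.1.ne'
    rw [LinCert2.φ, h1, sinh_three, hxy]
    field_simp
  have hψy : C.ψ (C.pv r).y
      = Real.sinh r ^ 3 * ((C.pv r).Fw / wf r ^ 2) / (C.pv r).y ^ 3 := by
    have hy0 := hy.1.ne'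
    rw [LinCert2.ψ, hrch, sinh_three, hxy]
    field_simp
  have hD : 0 < 3 / 4 + (C.pv r).y ^ 2 / 4 := by positivity
  refine ⟨hy.1, hy.2, pow_pos (Real.sinh_pos_iff.2 hr) 3, sq_nonneg _, by nlinarith,
    (C.f_cont hR).continuousOn, ?_, ?_, ?_, ?_, hφy, hok.P_nonneg, ?_⟩
  · intro c hc hc1
    refine (C.hasDerivAt_f hR hc hc1).congr_deriv ?_
    rw [LinCert2.φ]
    field_simp
  · intro a b ha hab hb
    have h1 := C.φ_tangent hR ha (hab.trans hb) (ha.trans_le hab) hb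
    have h2 := mul_nonneg (C.ψ_nonneg hR ha (hab.trans hb))
      (by nlinarith : 0 ≤ b ^ 2 - a ^ 2)
    linarith
  · intro c hyc hc1
    have h1 := C.φ_tangent hR hy.1 hy.2 (hy.1.trans_le hyc) hc1
    rw [hψy] at h1
    linarith
  · intro a c ha hac hcy
    have hc0 := ha.trans_le hac
    have h1 := C.φ_tangent hR hc0 (hcy.trans hy.2) hy.1 hy.2
    have h2 := C.φ_tangent hR hc0 (hcy.trans hy.2) ha (hac.trans (hcy.trans hy.2))
    have h3 : 0 ≤ (C.pv r).y ^ 2 - c ^ 2 := by nlinarith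
    have h4 : 0 ≤ c ^ 2 - a ^ 2 := by nlinarith
    have h5 := mul_le_mul_of_nonneg_right h1 h4
    have h6 := mul_le_mul_of_nonneg_right h2 h3
    nlinarith
  · -- `φ (y³/D)`
    generalize hc1def : (C.pv r).y ^ 3 / (3 / 4 + (C.pv r).y ^ 2 / 4) = c1
    have hc10 : 0 < c1 := by rw [← hc1def]; have := hy.1; positivity
    have hc1y : c1 ≤ (C.pv r).y := by
      rw [← hc1def, div_le_iff₀ hD]
      have := hy.1
      have := hy.2
      have h2 : (C.pv r).y ^ 2 ≤ 1 := by nlinarith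
      nlinarith [mul_nonneg hy.1.le (sub_nonneg.2 h2)]
    have h11 : c1 ≤ 1 := hc1y.trans hy.2
    have hr1 := rch_pos hR hc10 h11
    have hm := C.mono_N hR ⟨hr1, rch_le hR hc10 h11⟩ ⟨hr, hr2⟩ (by
      have := rch_mono hR hc10 hc1y hy.2
      rwa [hrch] at this)
    have hw1 := wf_pos (rch R c1)
    have hx1 : xf (rch R c1) = Real.tanh R * c1 := tanh_half_rch hR hc10.le h11
    have hw1y : wf (rch R c1) ^ 2 = 1 - Real.tanh R ^ 2 * c1 ^ 2 := by
      have := xf_sq_add_wf_sq (rch R c1)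
      rw [hx1] at this
      linarith
    beta_reduce at hm
    have e1 : C.φ c1 = 8 * Real.tanh R ^ 3 * c1 ^ 2
        * ((C.pv (rch R c1)).P / (wf (rch R c1) ^ 2) ^ 2) / wf (rch R c1) ^ 2 := by
      rw [LinCert2.φ, LinCert2.G]
      field_simp
    have e2 : C.φ (C.pv r).y = 8 * Real.tanh R ^ 3 * (C.pv r).y ^ 2
        * ((C.pv r).P / (wf r ^ 2) ^ 2) / wf r ^ 2 := by
      rw [LinCert2.φ, LinCert2.G, hrch]
      field_simp
    have e3 : (3 / 4 + (C.pv r).y ^ 2 / 4) ^ 2 - Real.tanh R ^ 2 * (C.pv r).y ^ 6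
        = (3 / 4 + (C.pv r).y ^ 2 / 4) ^ 2 * wf (rch R c1) ^ 2 := by
      rw [hw1y, ← hc1def]
      field_simp
    have e4 : (C.pv r).y ^ 4 * (1 - Real.tanh R ^ 2 * (C.pv r).y ^ 2)
        = (C.pv r).y ^ 4 * wf r ^ 2 := by rw [hwy]
    rw [e1, e2, e3, e4]
    have e5 : 8 * Real.tanh R ^ 3 * c1 ^ 2
        * ((C.pv (rch R c1)).P / (wf (rch R c1) ^ 2) ^ 2) / wf (rch R c1) ^ 2
        * ((3 / 4 + (C.pv r).y ^ 2 / 4) ^ 2 * wf (rch R c1) ^ 2)
        = 8 * Real.tanh R ^ 3 * (C.pv r).y ^ 6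
          * ((C.pv (rch R c1)).P / (wf (rch R c1) ^ 2) ^ 2) := by
      have hc1D : c1 * (3 / 4 + (C.pv r).y ^ 2 / 4) = (C.pv r).y ^ 3 := by
        rw [← hc1def]
        field_simp
      generalize (C.pv (rch R c1)).P / (wf (rch R c1) ^ 2) ^ 2 = z
      have e10 : 8 * Real.tanh R ^ 3 * c1 ^ 2 * z / wf (rch R c1) ^ 2
          * ((3 / 4 + (C.pv r).y ^ 2 / 4) ^ 2 * wf (rch R c1) ^ 2)
          = 8 * Real.tanh R ^ 3 * z * (c1 * (3 / 4 + (C.pv r).y ^ 2 / 4)) ^ 2 := by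
        have := hw1.ne'
        generalize 3 / 4 + (C.pv r).y ^ 2 / 4 = DD
        field_simp
      rw [e10, hc1D]
      ring
    have e6 : 8 * Real.tanh R ^ 3 * (C.pv r).y ^ 2
        * ((C.pv r).P / (wf r ^ 2) ^ 2) / wf r ^ 2 * ((C.pv r).y ^ 4 * wf r ^ 2)
        = 8 * Real.tanh R ^ 3 * (C.pv r).y ^ 6 * ((C.pv r).P / (wf r ^ 2) ^ 2) := by
      generalize (C.pv r).P / (wf r ^ 2) ^ 2 = z
      field_simp
    rw [e5, e6]
    have := hy.1
    exact mul_le_mul_of_nonneg_left hm (by positivity)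

/-- room in finitely many strict inequalities -/
theorem exists_room {a1 a2 a3 a4 a5 k : ℝ} (h1 : 0 < a1) (h2 : 0 < a2) (h3 : 0 < a3)
    (h4 : 0 < a4) (h5 : 0 < a5) (hk : 0 < k) :
    ∃ e : ℝ, 0 < e ∧ e ≤ a1 ∧ e ≤ a2 ∧ e ≤ a3 ∧ k * e ≤ a4 ∧ k * e ≤ a5 := by
  refine ⟨min (min a1 (min a2 a3)) (min (a4 / k) (a5 / k)), ?_, ?_, ?_, ?_, ?_, ?_⟩
  · exact lt_min (lt_min h1 (lt_min h2 h3)) (lt_min (div_pos h4 hk) (div_pos h5 hk))
  · exact (min_le_left _ _).trans (min_le_left _ _)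
  · exact (min_le_left _ _).trans ((min_le_right _ _).trans (min_le_left _ _))
  · exact (min_le_left _ _).trans ((min_le_right _ _).trans (min_le_right _ _))
  · have : min (min a1 (min a2 a3)) (min (a4 / k) (a5 / k)) ≤ a4 / k :=
      (min_le_right _ _).trans (min_le_left _ _)
    rw [le_div_iff₀ hk] at this
    linarith
  · have : min (min a1 (min a2 a3)) (min (a4 / k) (a5 / k)) ≤ a5 / k :=
      (min_le_right _ _).trans (min_le_right _ _)
    rw [le_div_iff₀ hk] at this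
    linarith

theorem TwoH.core_room {τ y P Fp S : ℝ} {f φ : ℝ → ℝ} (h : TwoH τ y P Fp S f φ) {A Pi Rr : ℝ}
    (hRr : 0 < Rr) (hPi : Pi ≤ y * A)
    (I4a : 3 / 4 * (A - Pi / 2) < Fp + Rr / 2)
    (I4b : 3 / 4 * (A - Pi * (1 + y) / (2 * y)) < Fp + Rr / 2)
    (I5a : A - Pi / 2 < 3 / 4 * (1 + y) * (3 / 4 + y ^ 2 / 4 + y ^ 2)
      * (P / ((3 / 4 + y ^ 2 / 4) ^ 2 - τ * y ^ 6) + Rr / (2 * (3 / 4 + y ^ 2 / 4) ^ 2)))
    (I5b : A - Pi * (1 + y) / (2 * y) < 3 / 4 * (1 + y) * (3 / 4 + y ^ 2 / 4 + y ^ 2)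
      * (P / ((3 / 4 + y ^ 2 / 4) ^ 2 - τ * y ^ 6) + Rr / (2 * (3 / 4 + y ^ 2 / 4) ^ 2)))
    (hA : 0 < A) : ∃ e : ℝ, 0 < e ∧ ∀ c c', 0 < c → c ≤ 1 → 0 < c' → c' ≤ 1 → c ≤ c' →
    e / 2 * ((1 - c / y) ^ 2 * (y / c) + (1 - c' / y) ^ 2 * (y / c')) ≤
      Bg y P S f c + Bg y P S f c'
      + Rr / 2 * ((1 - c / y) ^ 2 * (y / c) + (1 - c' / y) ^ 2 * (y / c'))
      + (1 - c / y) * (1 - c' / y) * (y / c) * (y / c') * (A - Pi / 2 * (c / y + c' / y)) := by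
  have hy0 := h.y0
  have hk : 0 < 3 / 4 * (1 + y) * (3 / 4 + y ^ 2 / 4 + y ^ 2)
      / (2 * (3 / 4 + y ^ 2 / 4) ^ 2) := by positivity
  obtain ⟨e, he, e1, e2, e3, e4, e5⟩ := exists_room hRr (sub_pos.2 I4a) (sub_pos.2 I4b)
    (sub_pos.2 I5a) (sub_pos.2 I5b) hk
  refine ⟨e, he, fun c c' hc hc1 hc' hc1' hcc => ?_⟩
  have hsplit : 3 / 4 * (1 + y) * (3 / 4 + y ^ 2 / 4 + y ^ 2)
      * (P / ((3 / 4 + y ^ 2 / 4) ^ 2 - τ * y ^ 6) + (Rr - e) / (2 * (3 / 4 + y ^ 2 / 4) ^ 2))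
      = 3 / 4 * (1 + y) * (3 / 4 + y ^ 2 / 4 + y ^ 2)
      * (P / ((3 / 4 + y ^ 2 / 4) ^ 2 - τ * y ^ 6) + Rr / (2 * (3 / 4 + y ^ 2 / 4) ^ 2))
      - 3 / 4 * (1 + y) * (3 / 4 + y ^ 2 / 4 + y ^ 2) / (2 * (3 / 4 + y ^ 2 / 4) ^ 2) * e := by
    ring
  have key := h.core (A := A) (Pi := Pi) (Rr := Rr - e) (by linarith) hPi (by linarith)
    (by linarith) (by rw [hsplit]; linarith) (by rw [hsplit]; linarith) hA hc hc1 hc' hc1' hcc
  linarith

/-- the core inequality with a margin -/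
theorem LinCert2.Strict.core {C : LinCert2 R} (h0 : C.Strict) (hR : 0 < R) {r : ℝ} (hr : 0 < r)
    (hr2 : r ≤ 2 * R) : ∃ e : ℝ, 0 < e ∧ ∀ c c', 0 < c → c ≤ 1 → 0 < c' → c' ≤ 1 → c ≤ c' →
    e / 2 * ((1 - c / (C.pv r).y) ^ 2 * ((C.pv r).y / c)
          + (1 - c' / (C.pv r).y) ^ 2 * ((C.pv r).y / c')) ≤
    Bg (C.pv r).y (C.pv r).P (Real.sinh r ^ 3) C.f c
      + Bg (C.pv r).y (C.pv r).P (Real.sinh r ^ 3) C.f c'
      + ((C.pv r).y ^ 2 * ((C.pv r).KA - (C.pv r).A1 + (C.pv r).KB - (C.pv r).B1 - (C.pv r).GB)) / 2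
        * ((1 - c / (C.pv r).y) ^ 2 * ((C.pv r).y / c)
          + (1 - c' / (C.pv r).y) ^ 2 * ((C.pv r).y / c'))
      + (1 - c / (C.pv r).y) * (1 - c' / (C.pv r).y) * ((C.pv r).y / c) * ((C.pv r).y / c')
        * ((C.pv r).a + (C.pv r).A1 + 2 * (C.pv r).KA
          - (C.pv r).y ^ 2 * ((C.pv r).KA - (C.pv r).A1) / 2
            * (c / (C.pv r).y + c' / (C.pv r).y)) := by
  have hok := C.okl' hR hr hr2
  have hy := chord_cos hR r hr hr2
  have hsok : (C.pv r).OKls := h0.okl_s _ _ (wf_pos r) (wf_lt_one hr) hy.1 hy.2 (C.y_sq hR r)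
  have hw := wf_pos r
  have hw2 : 0 < wf r ^ 2 := by positivity
  have hT := tanh_pos hR
  have hxy : xf r = Real.tanh R * (C.pv r).y := by
    have hyy : (C.pv r).y = xf r / Real.tanh R := rfl
    rw [hyy]
    field_simp
  have hwy : wf r ^ 2 = 1 - Real.tanh R ^ 2 * (C.pv r).y ^ 2 := by
    have := xf_sq_add_wf_sq r
    rw [hxy] at this
    linarith
  have e7 : (1 - (C.pv r).w ^ 2) * (C.pv r).y ^ 4 = Real.tanh R ^ 2 * (C.pv r).y ^ 6 := by
    have e8 : (C.pv r).w = wf r := rfl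
    rw [e8, hwy]
    ring
  have i5a := hsok.i5a
  have i5b := hsok.i5b
  rw [e7] at i5a i5b
  have h4 : ∀ X F Rr : ℝ, 3 / 4 * (wf r ^ 2 * X) < F + wf r ^ 2 * (Rr / 2) →
      3 / 4 * X < F / wf r ^ 2 + Rr / 2 := by
    intro X F Rr hX
    have h1 : wf r ^ 2 * (3 / 4 * X) < wf r ^ 2 * (F / wf r ^ 2 + Rr / 2) := by
      have e : wf r ^ 2 * (F / wf r ^ 2 + Rr / 2) = F + wf r ^ 2 * (Rr / 2) := by
        field_simp
      rw [e]
      linarith
    exact lt_of_mul_lt_mul_left h1 hw2.le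
  exact (C.twoH hR hr hr2).core_room (A := (C.pv r).A0) (Pi := (C.pv r).Pi)
    (Rr := (C.pv r).Rr) hsok.i2 hok.i3 (h4 _ _ _ hsok.i4a) (h4 _ _ _ hsok.i4b) i5a i5b hok.A_pos

/-- (T1) at a point with a margin -/
theorem Pv.T1_add {v : Pv} {f : ℝ → ℝ} {S c c' κ : ℝ} (hy : 0 < v.y) (hS : 0 < S) (hGB : v.GB ≤ 0)
    (hc : 0 < c) (hc1 : c ≤ 1) (hc' : 0 < c') (hc1' : c' ≤ 1)
    (core : κ ≤ Bg v.y v.P S f c + Bg v.y v.P S f c'
      + (v.y ^ 2 * (v.KA - v.A1 + v.KB - v.B1 - v.GB)) / 2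
        * ((1 - c / v.y) ^ 2 * (v.y / c) + (1 - c' / v.y) ^ 2 * (v.y / c'))
      + (1 - c / v.y) * (1 - c' / v.y) * (v.y / c) * (v.y / c')
        * (v.a + v.A1 + 2 * v.KA - v.y ^ 2 * (v.KA - v.A1) / 2 * (c / v.y + c' / v.y))) :
    c * c' * (S * v.b / v.y ^ 2 - (f c - f v.y) - (f c' - f v.y)) + S * (c * c') / v.y ^ 2 * κ
      ≤ S / v.y * v.B ((c + c') / 2) (c * c') (rhos ((c + c') / 2) (c * c')) := by
  have hρ := rhos_le hc.le hc1 hc'.le hc1'
  have hB : v.B ((c + c') / 2) (c * c') (1 - c * c')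
      ≤ v.B ((c + c') / 2) (c * c') (rhos ((c + c') / 2) (c * c')) := by
    have e : v.B ((c + c') / 2) (c * c') (rhos ((c + c') / 2) (c * c'))
        - v.B ((c + c') / 2) (c * c') (1 - c * c')
        = (c + c') / 2 * (-v.GB) * (1 - c * c' - rhos ((c + c') / 2) (c * c')) := by
      simp only [Pv.B]
      ring
    have : 0 ≤ (c + c') / 2 * (-v.GB) * (1 - c * c' - rhos ((c + c') / 2) (c * c')) :=
      mul_nonneg (mul_nonneg (by positivity) (by linarith)) (by linarith)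
    linarith
  refine le_trans ?_ (mul_le_mul_of_nonneg_left hB (div_nonneg hS.le hy.le))
  have hp : 0 < c * c' := mul_pos hc hc'
  have hpos : 0 < S * (c * c') / v.y ^ 2 := by positivity
  have h1 := mul_le_mul_of_nonneg_left core hpos.le
  have e1 : S * (c * c') / v.y ^ 2 * (Bg v.y v.P S f c + Bg v.y v.P S f c'
      + (v.y ^ 2 * (v.KA - v.A1 + v.KB - v.B1 - v.GB)) / 2
        * ((1 - c / v.y) ^ 2 * (v.y / c) + (1 - c' / v.y) ^ 2 * (v.y / c'))
      + (1 - c / v.y) * (1 - c' / v.y) * (v.y / c) * (v.y / c')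
        * (v.a + v.A1 + 2 * v.KA - v.y ^ 2 * (v.KA - v.A1) / 2 * (c / v.y + c' / v.y)))
      = S / v.y * v.B ((c + c') / 2) (c * c') (1 - c * c')
        - c * c' * (S * v.b / v.y ^ 2 - (f c - f v.y) - (f c' - f v.y)) := by
    simp only [Bg, Pv.B, Pv.b, Pv.P, Pv.A1, Pv.KA, Pv.B1, Pv.KB, Pv.GB]
    have hy' := hy.ne'
    have hc0 := hc.ne'
    have hc0' := hc'.ne'
    have hS' := hS.ne'
    field_simp
    ring
  rw [e1] at h1
  linarith

theorem LinCert2.GB_nonpos (C : LinCert2 R) (hR : 0 < R) {r : ℝ} (hr : 0 < r) :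
    (C.pv r).GB ≤ 0 := by
  have ho := C.okv hR hr
  unfold Pv.GB
  have := mul_nonneg (sq_nonneg (C.pv r).w) (neg_nonneg.2 ho.Y_np)
  linarith

/-- the bound (N2) for chords of the model ball, with a margin -/
theorem LinCert2.Strict.near {C : LinCert2 R} (h0 : C.Strict) (hR : 0 < R) {r : ℝ} (hr : 0 < r)
    (hr2 : r ≤ 2 * R) : ∃ e : ℝ, 0 < e ∧ ∀ c c', 0 < c → c ≤ 1 → 0 < c' → c' ≤ 1 →
    c * c' * (C.d * r - C.f c - C.f c') + Real.sinh r ^ 3 * (c * c') / (C.pv r).y ^ 2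
      * (e / 2 * ((1 - c / (C.pv r).y) ^ 2 * ((C.pv r).y / c)
          + (1 - c' / (C.pv r).y) ^ 2 * ((C.pv r).y / c'))) ≤
    Real.sinh r ^ 3 / (C.pv r).y
      * (C.pv r).B ((c + c') / 2) (c * c') (rhos ((c + c') / 2) (c * c')) := by
  obtain ⟨e, he, hcore⟩ := h0.core hR hr hr2
  refine ⟨e, he, fun c c' hc hc1 hc' hc1' => ?_⟩
  have hy := C.y_pos hR hr
  have hS : 0 < Real.sinh r ^ 3 := pow_pos (Real.sinh_pos_iff.2 hr) 3
  have hGB := C.GB_nonpos hR hr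
  have hcontact : C.d * r = 2 * C.f (C.pv r).y
      + Real.sinh r ^ 3 * (C.pv r).b / (C.pv r).y ^ 2 := by
    have h := chord_cos hR r hr hr2
    have e4 : (C.pv r).y = Real.tanh (r / 2) / Real.tanh R := rfl
    have e5 : C.K r = Real.sinh r ^ 3 * (C.pv r).b / (C.pv r).y ^ 2 := rfl
    rw [← e5, e4, C.f_eq h.1.le h.2, rch_tanh hR, LinCert2.F]
    ring
  rw [hcontact]
  rcases le_total c c' with h | h
  · have h1 := Pv.T1_add hy hS hGB hc hc1 hc' hc1' (hcore c c' hc hc1 hc' hc1' h)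
    linarith
  · have h1 := Pv.T1_add hy hS hGB hc' hc1' hc hc1 (hcore c' c hc' hc1' hc hc1 h)
    rw [add_comm c c', mul_comm c c']
    linarith

/-- equality in the bound (N2) at a chord of the model ball -/
theorem LinCert2.Strict.near_eq {C : LinCert2 R} (h0 : C.Strict) (hR : 0 < R) {r : ℝ} (hr : 0 < r)
    (hr2 : r ≤ 2 * R) {c c' : ℝ} (hc : 0 < c) (hc1 : c ≤ 1) (hc' : 0 < c') (hc1' : c' ≤ 1)
    (h : Real.sinh r ^ 3 / (C.pv r).y
      * (C.pv r).B ((c + c') / 2) (c * c') (rhos ((c + c') / 2) (c * c'))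
      ≤ c * c' * (C.d * r - C.f c - C.f c')) : c = (C.pv r).y ∧ c' = (C.pv r).y := by
  obtain ⟨e, he, hn⟩ := h0.near hR hr hr2
  have h1 := hn c c' hc hc1 hc' hc1'
  have hy := C.y_pos hR hr
  have hS : 0 < Real.sinh r ^ 3 := pow_pos (Real.sinh_pos_iff.2 hr) 3
  have h2 : Real.sinh r ^ 3 * (c * c') / (C.pv r).y ^ 2
      * (e / 2 * ((1 - c / (C.pv r).y) ^ 2 * ((C.pv r).y / c)
          + (1 - c' / (C.pv r).y) ^ 2 * ((C.pv r).y / c'))) ≤ 0 := by linarith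
  have h3 : 0 < Real.sinh r ^ 3 * (c * c') / (C.pv r).y ^ 2 * (e / 2) := by positivity
  have h4 : (1 - c / (C.pv r).y) ^ 2 * ((C.pv r).y / c)
          + (1 - c' / (C.pv r).y) ^ 2 * ((C.pv r).y / c') ≤ 0 := by
    rw [← mul_assoc] at h2
    exact nonpos_of_mul_nonpos_right h2 h3
  have h5 : ∀ t : ℝ, 0 < t → (1 - t / (C.pv r).y) ^ 2 * ((C.pv r).y / t) ≤ 0 →
      t = (C.pv r).y := by
    intro t ht h6
    have h7 : 0 < (C.pv r).y / t := by positivity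
    have h8 : (1 - t / (C.pv r).y) ^ 2 ≤ 0 := nonpos_of_mul_nonpos_left h6 h7
    have h9 : 1 - t / (C.pv r).y = 0 := by
      have := le_antisymm h8 (sq_nonneg _)
      exact pow_eq_zero_iff (two_ne_zero) |>.1 this
    field_simp at h9
    linarith
  have h6 : 0 ≤ (1 - c / (C.pv r).y) ^ 2 * ((C.pv r).y / c) := by positivity
  have h7 : 0 ≤ (1 - c' / (C.pv r).y) ^ 2 * ((C.pv r).y / c') := by positivity
  exact ⟨h5 c hc (by linarith), h5 c' hc' (by linarith)⟩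

/-- the lower bound of the pair kernel used for (N2) -/
theorem LinCert2.BL_le (C : LinCert2 R) (hR : 0 < R) : ∀ r c c', 0 < r → 0 < c → c ≤ 1 → 0 < c' →
    c' ≤ 1 → Real.sinh r ^ 3 / (xf r / Real.tanh R)
      * (C.pv r).B ((c + c') / 2) (c * c') (rhos ((c + c') / 2) (c * c'))
    ≤ (C.a + ((C.ηr r c' * (1 - c ^ 2)
          + C.η r c' * (Real.cosh r / Real.sinh r) * (((4 : ℕ) : ℝ) - 2 + c ^ 2)
        - |c| * |C.ηc r c'| * Real.sqrt ((1 - c ^ 2) * (1 - c' ^ 2)) / Real.sinh r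
        - (((4 : ℕ) : ℝ) - 1) * (Real.cosh R / Real.sinh R) * c * C.η r c')
      + (C.ηr r c * (1 - c' ^ 2)
          + C.η r c * (Real.cosh r / Real.sinh r) * (((4 : ℕ) : ℝ) - 2 + c' ^ 2)
        - |c'| * |C.ηc r c| * Real.sqrt ((1 - c' ^ 2) * (1 - c ^ 2)) / Real.sinh r
        - (((4 : ℕ) : ℝ) - 1) * (Real.cosh R / Real.sinh R) * c' * C.η r c)) / 2)
        * Real.sinh r ^ (4 - 1) := by
  have hT := tanh_pos hR
  intro r c c' hr hc hc1 hc' hc1'
  have hy := C.y_pos hR hr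
  have ho := C.okv hR hr
  have hk := C.key hR hr ho.Y_np c c' |c| |c'| 1 (Real.sqrt ((1 - c ^ 2) * (1 - c' ^ 2)))
  have e0 : (1 - c' ^ 2) * (1 - c ^ 2) = (1 - c ^ 2) * (1 - c' ^ 2) := by ring
  rw [e0]
  have hroot := root_le hc.le hc1 hc'.le hc1'
  obtain ⟨ρ, hρ⟩ : ∃ ρ, ρ = Real.sqrt ((1 - c ^ 2) * (1 - c' ^ 2)) := ⟨_, rfl⟩
  rw [← hρ] at hk hroot ⊢
  have hGB : (C.pv r).GB ≤ 0 := by
    unfold Pv.GB
    have := mul_nonneg (sq_nonneg (C.pv r).w) (neg_nonneg.2 ho.Y_np)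
    linarith
  have hB : (C.pv r).B ((c + c') / 2) (c * c') (rhos ((c + c') / 2) (c * c'))
      ≤ (C.pv r).B ((c + c') / 2) (c * c') ρ := by
    have e : (C.pv r).B ((c + c') / 2) (c * c') ρ
        - (C.pv r).B ((c + c') / 2) (c * c') (rhos ((c + c') / 2) (c * c'))
        = (c + c') / 2 * (-(C.pv r).GB) * (rhos ((c + c') / 2) (c * c') - ρ) := by
      simp only [Pv.B]
      ring
    have : 0 ≤ (c + c') / 2 * (-(C.pv r).GB) * (rhos ((c + c') / 2) (c * c') - ρ) :=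
      mul_nonneg (mul_nonneg (by positivity) (by linarith)) (by linarith)
    linarith
  have hS : 0 < Real.sinh r ^ 3 := pow_pos (Real.sinh_pos_iff.2 hr) 3
  refine (mul_le_mul_of_nonneg_left hB (div_nonneg hS.le hy.le)).trans (le_of_eq ?_)
  have e1 : (C.pv r).B ((c + c') / 2) (c * c') ρ
      = (C.pv r).y * (C.a + ((C.ηr r c' * (1 - c ^ 2)
      + C.η r c' * (Real.cosh r / Real.sinh r) * (2 + c ^ 2)
      - |c| * |C.ηc r c'| * ρ / Real.sinh r
      - 1 * (3 * (Real.cosh R / Real.sinh R) * c * C.η r c'))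
    + (C.ηr r c * (1 - c' ^ 2) + C.η r c * (Real.cosh r / Real.sinh r) * (2 + c' ^ 2)
      - |c'| * |C.ηc r c| * ρ / Real.sinh r
      - 1 * (3 * (Real.cosh R / Real.sinh R) * c' * C.η r c))) / 2) := by
    rw [hk, abs_of_pos hc, abs_of_pos hc']
    simp only [Pv.B]
    ring
  rw [e1]
  rw [show (4 - 1 : ℕ) = 3 from rfl, show (((4 : ℕ) : ℝ) - 2) = 2 by norm_num,
    show (((4 : ℕ) : ℝ) - 1) = 3 by norm_num]
  have e3 : ∀ S Z y : ℝ, 0 < y → S / y * (y * Z) = Z * S := by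
    intro S Z y hy
    field_simp
  rw [e3 _ _ _ hy]
  ring

theorem LinCert2.d_BL (C : LinCert2 R) (hR : 0 < R) {r : ℝ} (hr0 : 0 < r) (c c' : ℝ) :
    HasDerivAt (fun r => Real.sinh r ^ 3 / (xf r / Real.tanh R)
      * (C.pv r).B ((c + c') / 2) (c * c') (rhos ((c + c') / 2) (c * c')))
      (Real.sinh r ^ 3 / (xf r * (xf r / Real.tanh R))
      * ((C.pv r).dB ((c + c') / 2) (c * c') (rhos ((c + c') / 2) (c * c'))
        + 3 / 2 * (2 - wf r ^ 2) * (C.pv r).B ((c + c') / 2) (c * c')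
          (rhos ((c + c') / 2) (c * c')))) r := by
  have hT := tanh_pos hR
  have hx := (xf_pos hr0).ne'
  have hy : xf r / Real.tanh R ≠ 0 := (div_pos (xf_pos hr0) hT).ne'
  have h1 := ll_sinh hr0
  have h2 := ll_y (Real.tanh R) hr0
  have h3 := C.d_B hr0 ((c + c') / 2) (c * c') (rhos ((c + c') / 2) (c * c'))
  refine ((h1.fun_div h2 hy).fun_mul h3).congr_deriv ?_
  generalize (C.pv r).B ((c + c') / 2) (c * c') (rhos ((c + c') / 2) (c * c')) = B
  generalize (C.pv r).dB ((c + c') / 2) (c * c') (rhos ((c + c') / 2) (c * c')) = dB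
  generalize xf r / Real.tanh R = y at hy
  field_simp
  ring

/-- from a lower bound for the derivative at a point beyond `2R` -/
theorem DL_scale {T x w d p B dB : ℝ} (hx : 0 < x) (hw : 0 < w) (hT : 0 < T) :
    8 * x ^ 3 / w ^ 6 / (x * (x / T)) * (dB + 3 / 2 * (2 - w ^ 2) * B) - p * d
      = 8 / (w ^ 6 * (x / T)) * (x ^ 2 * (dB + 3 / 2 * (2 - w ^ 2) * B)
        - d / 8 * p * w ^ 6 * (x / T)) := by
  field_simp

theorem LinCert2.DL_le (C : LinCert2 R) (hR : 0 < R) {r c c' : ℝ} (hr : 2 * R < r)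
    (hc : 0 < c) (hc1 : c ≤ 1) (hc' : 0 < c') (hc1' : c' ≤ 1) :
    c * c' * C.d ≤ Real.sinh r ^ 3 / (xf r * (xf r / Real.tanh R))
      * ((C.pv r).dB ((c + c') / 2) (c * c') (rhos ((c + c') / 2) (c * c'))
        + 3 / 2 * (2 - wf r ^ 2) * (C.pv r).B ((c + c') / 2) (c * c')
          (rhos ((c + c') / 2) (c * c'))) := by
  have hr0 : 0 < r := by linarith
  have hT := tanh_pos hR
  have hx := xf_pos hr0
  have hw := wf_pos r
  have hw1 : (C.pv r).w ^ 2 ≤ 1 := by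
    have e : (C.pv r).w = wf r := rfl
    rw [e]
    have := wf_lt_one hr0
    nlinarith
  have h := Pv.T2' hw1 (C.okr' hR hr) hc.le hc1 hc'.le hc1'
  have e1 : (C.pv r).w = wf r := rfl
  rw [e1] at h
  have e2 : (C.pv r).y = xf r / Real.tanh R := rfl
  rw [e2] at h
  have hx2 : 1 - wf r ^ 2 = xf r ^ 2 := by linarith [xf_sq_add_wf_sq r]
  rw [hx2] at h
  rw [sinh_three, ← sub_nonneg, DL_scale hx hw hT]
  have hpos : 0 < 8 / (wf r ^ 6 * (xf r / Real.tanh R)) := by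
    have : 0 < xf r / Real.tanh R := by positivity
    positivity
  exact mul_nonneg hpos.le (sub_nonneg.2 h)

theorem LinCert2.Strict.DL_lt {C : LinCert2 R} (h0 : C.Strict) (hR : 0 < R) {r : ℝ}
    (hr : 2 * R < r) :
    1 * 1 * C.d < Real.sinh r ^ 3 / (xf r * (xf r / Real.tanh R))
      * ((C.pv r).dB ((1 + 1) / 2) (1 * 1) (rhos ((1 + 1) / 2) (1 * 1))
        + 3 / 2 * (2 - wf r ^ 2) * (C.pv r).B ((1 + 1) / 2) (1 * 1)
          (rhos ((1 + 1) / 2) (1 * 1))) := by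
  have hr0 : 0 < r := by linarith
  have hT := tanh_pos hR
  have hx := xf_pos hr0
  have hw := wf_pos r
  have h1 : 1 < xf r / Real.tanh R := by
    rw [lt_div_iff₀ hT, one_mul]
    have h2 : Real.tanh R < Real.tanh (r / 2) := by
      rw [Real.tanh_eq_sinh_div_cosh, Real.tanh_eq_sinh_div_cosh,
        div_lt_div_iff₀ (Real.cosh_pos _) (Real.cosh_pos _)]
      have h3 : 0 < Real.sinh (r / 2 - R) := Real.sinh_pos_iff.2 (by linarith)
      rw [Real.sinh_sub] at h3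
      linarith
    exact h2
  have h := h0.okr_s _ _ (wf_pos r) (wf_lt_one hr0) h1 (C.y_sq hR r)
  have hrho : rhos ((1 + 1) / 2) (1 * 1 : ℝ) = 0 := by
    have e : ((1 : ℝ) + 1) / 2 = 1 := by norm_num
    rw [e, show (1 * 1 : ℝ) = 1 ^ 2 by norm_num, rhos_sq]
    norm_num
  rw [hrho, show ((1 : ℝ) + 1) / 2 = 1 by norm_num, show (1 * 1 : ℝ) = 1 by norm_num]
  have h' : C.d / 8 * 1 * wf r ^ 6 * (xf r / Real.tanh R)
      < (1 - wf r ^ 2) * ((C.pv r).dB 1 1 0 + 3 / 2 * (2 - wf r ^ 2) * (C.pv r).B 1 1 0) := by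
    refine lt_of_eq_of_lt ?_ h
    ring
  have hx2 : 1 - wf r ^ 2 = xf r ^ 2 := by linarith [xf_sq_add_wf_sq r]
  rw [hx2] at h'
  rw [sinh_three, ← sub_pos]
  have e := DL_scale (d := C.d) (p := 1) (B := (C.pv r).B 1 1 0) (dB := (C.pv r).dB 1 1 0) hx hw hT
  rw [e]
  have hpos : 0 < 8 / (wf r ^ 6 * (xf r / Real.tanh R)) := by
    have : 0 < xf r / Real.tanh R := by positivity
    positivity
  exact mul_pos hpos (sub_pos.2 h')

/-- equality in (N2) -/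
theorem LinCert2.Strict.lower {C : LinCert2 R} (h0 : C.Strict) (hR : 0 < R) {r c c' : ℝ}
    (hr : 0 < r) (hc : 0 < c) (hc1 : c ≤ 1) (hc' : 0 < c') (hc1' : c' ≤ 1)
    (h : (C.a + ((C.ηr r c' * (1 - c ^ 2)
          + C.η r c' * (Real.cosh r / Real.sinh r) * (((4 : ℕ) : ℝ) - 2 + c ^ 2)
        - |c| * |C.ηc r c'| * Real.sqrt ((1 - c ^ 2) * (1 - c' ^ 2)) / Real.sinh r
        - (((4 : ℕ) : ℝ) - 1) * (Real.cosh R / Real.sinh R) * c * C.η r c')
      + (C.ηr r c * (1 - c' ^ 2)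
          + C.η r c * (Real.cosh r / Real.sinh r) * (((4 : ℕ) : ℝ) - 2 + c' ^ 2)
        - |c'| * |C.ηc r c| * Real.sqrt ((1 - c' ^ 2) * (1 - c ^ 2)) / Real.sinh r
        - (((4 : ℕ) : ℝ) - 1) * (Real.cosh R / Real.sinh R) * c' * C.η r c)) / 2)
        * Real.sinh r ^ (4 - 1)
      = c * c' * (C.d * r - C.f c - C.f c')) : Real.tanh (r / 2) = Real.tanh R * c' := by
  have hT := tanh_pos hR
  have hle := C.BL_le hR r c c' hr hc hc1 hc' hc1'
  rw [h] at hle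
  rcases le_or_gt r (2 * R) with hr2 | hr2
  · have e2 : (C.pv r).y = xf r / Real.tanh R := rfl
    rw [← e2] at hle
    have h1 := (h0.near_eq hR hr hr2 hc hc1 hc' hc1' hle).2
    have e3 : (C.pv r).y = Real.tanh (r / 2) / Real.tanh R := rfl
    rw [h1, e3]
    field_simp
  · exfalso
    have hlin : ∀ c c' x : ℝ, HasDerivAt (fun r : ℝ => c * c' * (C.d * r - C.f c - C.f c'))
        (c * c' * C.d) x := by
      intro c c' x
      have := ((((hasDerivAt_id x).const_mul C.d).sub_const (C.f c)).sub_const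
        (C.f c')).const_mul (c * c')
      simpa using this
    obtain ⟨Φ, hΦ⟩ : ∃ Φ : ℝ → ℝ, Φ = fun r => Real.sinh r ^ 3 / (xf r / Real.tanh R)
      * (C.pv r).B ((c + c') / 2) (c * c') (rhos ((c + c') / 2) (c * c'))
      - c * c' * (C.d * r - C.f c - C.f c') := ⟨_, rfl⟩
    have hd : ∀ s, 0 < s → HasDerivAt Φ (Real.sinh s ^ 3 / (xf s * (xf s / Real.tanh R))
      * ((C.pv s).dB ((c + c') / 2) (c * c') (rhos ((c + c') / 2) (c * c'))
        + 3 / 2 * (2 - wf s ^ 2) * (C.pv s).B ((c + c') / 2) (c * c')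
          (rhos ((c + c') / 2) (c * c'))) - c * c' * C.d) s := by
      intro s hs
      rw [hΦ]
      exact (C.d_BL hR hs c c').sub (hlin c c' s)
    have hmono : MonotoneOn Φ (Icc (2 * R) r) := by
      refine monotoneOn_of_deriv_nonneg (convex_Icc _ _) ?_ ?_ ?_
      · intro s hs
        exact (hd s (by linarith [hs.1])).continuousAt.continuousWithinAt
      · rw [interior_Icc]
        intro s hs
        exact (hd s (by linarith [hs.1])).differentiableAt.differentiableWithinAt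
      · rw [interior_Icc]
        intro s hs
        rw [(hd s (by linarith [hs.1])).deriv]
        have := C.DL_le hR hs.1 hc hc1 hc' hc1'
        linarith
    have hΦr : Φ r ≤ 0 := by
      rw [hΦ]
      linarith
    have h2R : Φ (2 * R) ≤ Φ r := hmono ⟨le_rfl, hr2.le⟩ ⟨hr2.le, le_rfl⟩ hr2.le
    have hR2 : 0 < 2 * R := by linarith
    have e2 : (C.pv (2 * R)).y = xf (2 * R) / Real.tanh R := rfl
    have e3 : (C.pv (2 * R)).y = 1 := by
      rw [e2]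
      unfold xf
      rw [show 2 * R / 2 = R by ring]
      exact div_self hT.ne'
    have h3 := h0.near_eq hR hR2 le_rfl hc hc1 hc' hc1' (by
      rw [e2]
      have : Φ (2 * R) ≤ 0 := h2R.trans hΦr
      rw [hΦ] at this
      linarith)
    rw [e3] at h3
    obtain ⟨h4, h5⟩ := h3
    subst h4
    subst h5
    have hstrict : StrictMonoOn Φ (Icc (2 * R) r) := by
      refine strictMonoOn_of_deriv_pos (convex_Icc _ _) ?_ ?_
      · intro s hs
        exact (hd s (by linarith [hs.1])).continuousAt.continuousWithinAt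
      · rw [interior_Icc]
        intro s hs
        rw [(hd s (by linarith [hs.1])).deriv]
        have := h0.DL_lt hR hs.1
        linarith
    have h6 : Φ (2 * R) < Φ r := hstrict ⟨le_rfl, hr2.le⟩ ⟨hr2.le, le_rfl⟩ hr2
    obtain ⟨e, he, hn⟩ := h0.near hR hR2 le_rfl
    have h7 := hn 1 1 one_pos le_rfl one_pos le_rfl
    rw [e3] at h7
    have h8 : 0 ≤ Φ (2 * R) := by
      have e4 : xf (2 * R) / Real.tanh R = 1 := by rw [← e2, e3]
      rw [hΦ]
      beta_reduce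
      rw [e4]
      have h9 : (1 : ℝ) - 1 / 1 = 0 := by norm_num
      rw [h9] at h7
      linarith
    linarith

end Vale.Agent.Lib.P219.Lin
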